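import Crest.Agent.X262.Drop30.Spl
import Crest.Agent.X262.Drop30.Defs
import Crest.Agent.X262.Vb.Loc
import Crest.Agent.X262.Wd54.Lat
import Crest.Agent.X262.Vb37.Mob
import Crest.Agent.X262.Bub96.NormB
import Crest.Agent.X262.Node22.Gau
import Crest.Agent.X262.Vb37.Univ
import Crest.Agent.X262.Wd54.Gx
import Crest.Agent.X262.Gen42.Two
import Crest.Agent.X262.Cl49.Np
import Crest.Agent.X262.DropD.Main
import Crest.Agent.X262.Vb10.Amal

-- ▼ part X262/Drop30/Side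
section

/-!
# Row 262, DROP (helper30), part 2: the two sides of an annulus

* `nv v x` : the sup norm;
* `Mt` : a point of the line matched with a point of one of the two sides, `Mt.est` : the estimate;
* `Sd` : the side data of a family of forms; `exists_sd`.
-/

set_option autoImplicit false

namespace Crest.Agent.X262.Drop30

open Polynomial
open Crest.Agent.X262.Bub96 (hv)

variable {K : Type*} [Field K] {Γ : Type*} [LinearOrderedCommGroupWithZero Γ]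
  {v : Valuation K Γ} {ι : Type*} [Fintype ι]

/-- the sup norm -/
noncomputable def nv (v : Valuation K Γ) (x : ι → K) : Γ := Finset.univ.sup fun i => v (x i)

theorem le_nv (x : ι → K) (i : ι) : v (x i) ≤ nv v x :=
  Finset.le_sup (f := fun i => v (x i)) (Finset.mem_univ i)

theorem nv_le {x : ι → K} {γ : Γ} (h : ∀ i, v (x i) ≤ γ) : nv v x ≤ γ :=
  Finset.sup_le fun i _ => h i


theorem v_sum_le_nv {l x : ι → K} (hl : ∀ i, v (l i) ≤ 1) : v (∑ i, l i * x i) ≤ nv v x :=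
  v.map_sum_le fun i _ => by
    rw [map_mul]
    exact (mul_le_of_le_one_left' (hl i)).trans (le_nv x i)

variable {a ρ ρ1 ρ2 : K} {m e : ℕ} {Pi Po σ σ1 σ2 : K[X]} {M η : Γ}

/-- outside the inner circle -/
def Out (v : Valuation K Γ) (a ρ : K) (y : Option K) : Prop := ∀ t, y = some t → v ρ < v (t - a)

theorem Spl.hv_ne (hs : Spl v a ρ1 ρ2 m e Pi Po) {y : Option K} (hy : Out v a ρ1 y) :
    v (hv m Pi y) ≠ 0 := by
  cases y with
  | none => simp [← hs.di, hs.monic.coeff_natDegree]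
  | some t => exact hs.r1.v_i_ne hs.di.le (hy t rfl).le

namespace Rel

theorem out_i' (hs : Spl v a ρ1 ρ2 m e Pi Po) (h : Rel a m e Pi Po σ σ1 σ2)
    (hb : Bd v a ρ1 m Pi σ1 σ2 1) {y : Option K} (hy : Out v a ρ1 y) :
    v (hv m σ1 y - σ1.coeff m * hv m Pi y) < v (hv m Pi y) := by
  cases y with
  | none => simp [← hs.di, hs.monic.coeff_natDegree]
  | some t => simpa using h.out_i hs.monic hs.di hs.r1 hb one_ne_zero (hy t rfl)

theorem out' (hs : Spl v a ρ1 ρ2 m e Pi Po) (h : Rel a m e Pi Po σ σ1 σ2)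
    (hb : Bd v a ρ1 m Pi σ1 σ2 1) {y : Option K} (hy : Out v a ρ1 y) (hη : η ≠ 0)
    (hle : v (hv e Po y) ≤ η) :
    v (hv (m + e) σ y - hv e σ2 y * hv m Pi y) < v (hv m Pi y) * η := by
  cases y with
  | none =>
    have h1 : Pi.coeff m = 1 := by rw [← hs.di, hs.monic.coeff_natDegree]
    simpa [h.top hs, h1] using zero_lt_iff.2 hη
  | some t => simpa using h.out hs.monic hs.di hs.r1 hb one_ne_zero (hy t rfl) hη hle

/-- in the annulus -/
theorem mid (hs : Spl v a ρ1 ρ2 m e Pi Po) (h : Rel a m e Pi Po σ σ1 σ2)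
    (h1 : Bd v a ρ1 m Pi σ1 σ2 1) (h2 : Bd v a ρ2 m Pi σ1 σ2 1) {y : K} (hy : v ρ1 < v (y - a))
    (hy' : v (y - a) < v ρ2) : v ((Pi.eval y)⁻¹ * σ.eval y - σ1.coeff m) < 1 := by
  have h0 := hs.r1.v_i_ne hs.di.le hy.le
  have h0' : Pi.eval y ≠ 0 := by simpa using h0
  have h3 := h.out hs.monic hs.di hs.r1 h1 one_ne_zero hy one_ne_zero (hs.r2.v_o hy'.le).le
  have h4 := h.ins_o hs.r2 h2 one_ne_zero hy'
  rw [show (Pi.eval y)⁻¹ * σ.eval y - σ1.coeff m = (Pi.eval y)⁻¹ *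
    (σ.eval y - σ2.eval y * Pi.eval y) + (σ2.eval y - σ1.coeff m) by field_simp; ring]
  refine v.map_add_lt ?_ h4
  rw [map_mul, map_inv₀, inv_mul_lt_one₀ (zero_lt_iff.2 h0)]
  simpa using h3

theorem le_of_bd (hr : Rad v a ρ m Pi Po) (h : Rel a m e Pi Po σ σ1 σ2)
    (hb : Bd v a ρ m Pi σ1 σ2 M) : Le v (sc a ρ σ) (M * v ρ ^ m) := by
  rw [h.eq, map_add, map_mul, map_mul]
  exact (by simpa using hb.i.mul hr.le_o : Le v _ _).add (hb.o.mul hr.le_i)

theorem le1_of_bd (hr : Rad v a ρ m Pi Po) (h : Rel a m e Pi Po σ σ1 σ2)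
    (hb : Bd v a ρ m Pi σ1 σ2 M) : Le v (sc a ρ σ1) (M * v ρ ^ m) := by
  have h1 := hb.i.add (((le_C _).mono (h.v_node hb)).mul hr.le_i)
  rwa [map_sub, map_mul, sc_C, sub_add_cancel] at h1

theorem self (hs : Spl v a ρ1 ρ2 m e Pi Po) : Rel a m e Pi Po (Pi * Po) Pi Po := by
  have h1 : Pi.coeff m = 1 := by rw [← hs.di, hs.monic.coeff_natDegree]
  exact ⟨hs.di.le, hs.dO, by rw [h1, hs.oa], by rw [h1, C_1]; ring⟩

theorem sum {F F1 F2 : ι → K[X]} (h : ∀ i, Rel a m e Pi Po (F i) (F1 i) (F2 i)) (l : ι → K) :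
    Rel a m e Pi Po (∑ i, C (l i) * F i) (∑ i, C (l i) * F1 i) (∑ i, C (l i) * F2 i) := by
  refine ⟨natDegree_sum_le_of_forall_le _ _ fun i _ => (natDegree_C_mul_le _ _).trans (h i).d1,
    natDegree_sum_le_of_forall_le _ _ fun i _ => (natDegree_C_mul_le _ _).trans (h i).d2, ?_, ?_⟩
  · simp [eval_finsetSum, (h _).node]
  · simp only [finsetSum_coeff, coeff_C_mul, map_sum, Finset.sum_mul, ← Finset.sum_sub_distrib,
      ← Finset.sum_add_distrib]
    refine Finset.sum_congr rfl fun i _ => ?_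
    conv_lhs => rw [(h i).eq]
    rw [C_mul]
    ring

theorem unique {τ1 τ2 : K[X]} (hs : Spl v a ρ1 ρ2 m e Pi Po) (h : Rel a m e Pi Po σ σ1 σ2)
    (h' : Rel a m e Pi Po σ τ1 τ2) : σ1 = τ1 ∧ σ2 = τ2 := by
  have h1 : Rel a m e Pi Po 0 (σ1 - τ1) (σ2 - τ2) :=
    ⟨(natDegree_sub_le _ _).trans (max_le h.d1 h'.d1), (natDegree_sub_le _ _).trans
      (max_le h.d2 h'.d2), by rw [coeff_sub, eval_sub, h.node, h'.node], by
      rw [coeff_sub, C_sub]
      linear_combination h.eq - h'.eq⟩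
  have h2 := h1.bd_of_le (M := 0) hs.monic hs.di hs.r1 (by rw [map_zero]; exact le_zero _)
  have inj : ∀ f : K[X], sc a ρ1 f = 0 → f = 0 := fun f hf => by
    have h3 := comp_eq_zero_iff.1 hf
    refine h3.resolve_right fun h4 => ?_
    have h5 := congrArg natDegree h4.2
    rw [natDegree_lin hs.r1.ne, natDegree_C] at h5
    exact one_ne_zero h5
  have h3 := inj _ h2.o.eq_zero
  have h4 := inj _ (Le.eq_zero (by simpa only [zero_mul] using h2.i))
  rw [h1.node, h3, eval_zero, C_0, zero_mul, sub_zero] at h4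
  exact ⟨sub_eq_zero.1 h4, sub_eq_zero.1 h3⟩

end Rel

/-! ### matched points -/

/-- a point of the line and a point of one of the sides -/
inductive Mt (K : Type*) : Type _
  | ins (t : K)
  | out (y : Option K)
  | nin (y : K) (u : Option K)
  | nout (y t : K)

namespace Mt

/-- the point of the line -/
def y : Mt K → Option K
  | ins t => some t
  | out y => y
  | nin y _ => some y
  | nout y _ => some y

/-- the point of the side -/
def u : Mt K → Option K ⊕ Option K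
  | ins t => .inl (some t)
  | out y => .inr y
  | nin _ u => .inl u
  | nout _ t => .inr (some t)

/-- the comparison scalar -/
noncomputable def cf (m : ℕ) (Pi Po : K[X]) : Mt K → K
  | ins t => (Po.eval t)⁻¹
  | out y => (hv m Pi y)⁻¹
  | nin y u => hv m Pi u * (Pi.eval y)⁻¹
  | nout y _ => (Pi.eval y)⁻¹

/-- the positions -/
def Ok (v : Valuation K Γ) (a ρ1 ρ2 : K) : Mt K → Prop
  | ins t => v (t - a) < v ρ2
  | out y => Out v a ρ1 y
  | nin y u => v ρ1 < v (y - a) ∧ v (y - a) < v ρ2 ∧ Out v a ρ1 u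
  | nout y t => v ρ1 < v (y - a) ∧ v (y - a) < v ρ2 ∧ v (t - a) < v ρ2

theorem cf_prod {J : Type*} [Fintype J] (κ m : J → ℕ) (Pi Po : J → K[X])
    (h : ∀ j, (Pi j).natDegree ≤ m j) (μ : Mt K) :
    μ.cf (∑ j, κ j * m j) (∏ j, Pi j ^ κ j) (∏ j, Po j ^ κ j) =
      ∏ j, μ.cf (m j) (Pi j) (Po j) ^ κ j := by
  have h1 : ∀ y, hv (∑ j, κ j * m j) (∏ j, Pi j ^ κ j) y = ∏ j, hv (m j) (Pi j) y ^ κ j := fun y =>
    (hv_prod _ (fun j => natDegree_pow_le_of_le _ (h j)) y).trans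
      (Finset.prod_congr rfl fun j _ => hv_pow (h j) _ y)
  cases μ <;> simp [cf, h1, eval_prod, mul_pow, Finset.prod_mul_distrib]

/-- **the estimate** -/
theorem est (hs : Spl v a ρ1 ρ2 m e Pi Po) (h : Rel a m e Pi Po σ σ1 σ2)
    (h1 : Bd v a ρ1 m Pi σ1 σ2 1) (h2 : Bd v a ρ2 m Pi σ1 σ2 1) {μ : Mt K} (hμ : μ.Ok v a ρ1 ρ2)
    (hη : η ≠ 0) (hle : v (μ.u.elim (hv m Pi) (hv e Po)) ≤ η) :
    v (μ.cf m Pi Po * hv (m + e) σ μ.y - μ.u.elim (hv m σ1) (hv e σ2)) < η := by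
  cases μ with
  | ins t =>
    have h3 := hs.r2.v_o (le_of_lt hμ)
    have h0 : Po.eval t ≠ 0 := fun h0 => by simp [h0] at h3
    have h4 := h.ins hs.r2 h2 one_ne_zero hμ hη hle
    change v ((Po.eval t)⁻¹ * σ.eval t - σ1.eval t) < η
    rw [show (Po.eval t)⁻¹ * σ.eval t - σ1.eval t =
      (Po.eval t)⁻¹ * (σ.eval t - σ1.eval t * Po.eval t) by field_simp, map_mul, map_inv₀, h3]
    simpa using h4
  | out y =>
    have h0 := hs.hv_ne hμ
    have h0' : hv m Pi y ≠ 0 := by simpa using h0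
    have h4 := h.out' hs h1 hμ hη hle
    change v ((hv m Pi y)⁻¹ * hv (m + e) σ y - hv e σ2 y) < η
    rw [show (hv m Pi y)⁻¹ * hv (m + e) σ y - hv e σ2 y =
      (hv m Pi y)⁻¹ * (hv (m + e) σ y - hv e σ2 y * hv m Pi y) by field_simp, map_mul, map_inv₀,
      inv_mul_lt_iff₀ (zero_lt_iff.2 h0)]
    exact h4
  | nin y u =>
    have h3 := h.mid hs h1 h2 hμ.1 hμ.2.1
    have h4 := h.out_i' hs h1 hμ.2.2
    change v (hv m Pi u * (Pi.eval y)⁻¹ * σ.eval y - hv m σ1 u) < η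
    rw [show hv m Pi u * (Pi.eval y)⁻¹ * σ.eval y - hv m σ1 u = hv m Pi u *
      ((Pi.eval y)⁻¹ * σ.eval y - σ1.coeff m) - (hv m σ1 u - σ1.coeff m * hv m Pi u) by ring]
    refine (v.map_sub_lt ?_ h4).trans_le hle
    rw [map_mul]
    exact mul_lt_of_lt_one_right (zero_lt_iff.2 (hs.hv_ne hμ.2.2)) h3
  | nout y t =>
    have h3 := h.mid hs h1 h2 hμ.1 hμ.2.1
    have h4 := h.ins_o hs.r2 h2 one_ne_zero hμ.2.2
    change v ((Pi.eval y)⁻¹ * σ.eval y - σ2.eval t) < η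
    rw [show (Pi.eval y)⁻¹ * σ.eval y - σ2.eval t =
      ((Pi.eval y)⁻¹ * σ.eval y - σ1.coeff m) - (σ2.eval t - σ1.coeff m) by ring]
    exact (v.map_sub_lt h3 h4).trans_le ((hs.r2.v_o hμ.2.2.le).symm.le.trans hle)

end Mt

/-! ### side data -/

/-- the two sides of the family `F` -/
structure Sd (v : Valuation K Γ) (a ρ1 ρ2 : K) (m e : ℕ) (Pi Po : K[X]) (F F1 F2 : ι → K[X]) :
    Prop where
  spl : Spl v a ρ1 ρ2 m e Pi Po
  rel : ∀ i, Rel a m e Pi Po (F i) (F1 i) (F2 i)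
  b1 : ∀ i, Bd v a ρ1 m Pi (F1 i) (F2 i) 1
  b2 : ∀ i, Bd v a ρ2 m Pi (F1 i) (F2 i) 1
  hi : ∀ y, v (hv m Pi y) ≤ nv v fun i => hv m (F1 i) y
  ho : ∀ y, v (hv e Po y) ≤ nv v fun i => hv e (F2 i) y

namespace Sd

variable {F F1 F2 : ι → K[X]}

theorem cop1 (h : Sd v a ρ1 ρ2 m e Pi Po F F1 F2) (hc : ∀ y, ∃ i, hv (m + e) (F i) y ≠ 0)
    (y : Option K) : ∃ i, hv m (F1 i) y ≠ 0 := by
  by_contra h0
  push Not at h0
  have h1 : hv m Pi y = 0 := by
    simpa using (h.hi y).trans (nv_le (γ := 0) fun i => by rw [h0 i, map_zero])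
  cases y with
  | none => simp [← h.spl.di, h.spl.monic.coeff_natDegree] at h1
  | some t =>
    obtain ⟨i, hi⟩ := hc (some t)
    refine hi ?_
    rw [(h.rel i).eq]
    simp only [hv_some] at h0 h1
    simp [h0, h1]

theorem cop2 (h : Sd v a ρ1 ρ2 m e Pi Po F F1 F2) (hc : ∀ y, ∃ i, hv (m + e) (F i) y ≠ 0)
    (y : Option K) : ∃ i, hv e (F2 i) y ≠ 0 := by
  by_contra h0
  push Not at h0
  have h1 : hv e Po y = 0 := by
    simpa using (h.ho y).trans (nv_le (γ := 0) fun i => by rw [h0 i, map_zero])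
  obtain ⟨i, hi⟩ := hc y
  refine hi ?_
  cases y with
  | none => exact ((h.rel i).top h.spl).trans (h0 i)
  | some t =>
    rw [(h.rel i).eq]
    simp only [hv_some] at h0 h1
    simp [h0, h1]

end Sd

/-- on a circle, coefficient bounds give bounds of the norm -/
theorem nv_circ (hρ : ρ ≠ 0) {F : ι → K[X]} {γ : Γ} (h : ∀ i, Le v (sc a ρ (F i)) γ) {y : K}
    (hy : v (y - a) = v ρ) : (nv v fun i => (F i).eval y) ≤ γ := nv_le fun i => by
  rw [← eval_sc' (a := a) hρ]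
  exact (h i).eval (by rw [map_div₀, hy, div_self (by simpa using hρ)])

/-- at most `card ι` integers are bad for a vector -/
theorem card_bad (hv : Triv v) (ε : ι ↪ Fin (Fintype.card ι)) (w : ι → K) (i₀ : ι) (s : Finset ℕ)
    (hs : ∀ c ∈ s, v (∑ i, (c : K) ^ (ε i : ℕ) * w i) < v (w i₀)) : s.card < Fintype.card ι := by
  by_contra hc
  have hpos : 0 < Fintype.card ι := Fintype.card_pos_iff.2 ⟨i₀⟩
  obtain ⟨c, hc1, hc2⟩ := s.exists_max_image (fun c => v (∑ i, (c : K) ^ (ε i : ℕ) * w i))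
    (Finset.card_pos.1 (by omega))
  have h1 := le_of_nat (f := ∑ i, monomial (ε i : ℕ) (w i))
    (γ := v (∑ i, (c : K) ^ (ε i : ℕ) * w i)) hv s
    (lt_of_le_of_lt (natDegree_sum_le_of_forall_le (n := Fintype.card ι - 1) _ _ fun i _ =>
      (natDegree_monomial_le _).trans (by have := (ε i).2; omega)) (by omega))
    fun n hn => by
      rw [eval_finsetSum]
      simpa only [eval_monomial, mul_comm (w _)] using hc2 n hn
  have h2 := h1 (ε i₀)
  rw [finsetSum_coeff, Finset.sum_eq_single i₀ (fun i _ hi => by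
    rw [coeff_monomial, if_neg fun h => hi (ε.injective (Fin.ext h))]) (by simp),
    coeff_monomial, if_pos rfl] at h2
  exact (hs c hc1).not_ge h2

/-- the Vandermonde forms -/
noncomputable def vf (F : ι → K[X]) (c : ℕ) : K[X] :=
  ∑ i, C ((c : K) ^ (Fintype.equivFin ι i : ℕ)) * F i

/-- for all but `card ι` integers, the Vandermonde form has the largest Gauss norm -/
theorem card_bad' (hv : Triv v) {F : ι → K[X]} (a ρ : K) [Nonempty ι] (s : Finset ℕ)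
    (hs : ∀ c ∈ s, ¬ ∀ γ, Le v (sc a ρ (vf F c)) γ → ∀ i, Le v (sc a ρ (F i)) γ) :
    s.card < Fintype.card ι := by
  choose n hn using fun i => exists_le (v := v) (sc a ρ (F i))
  obtain ⟨i₀, -, h0⟩ := Finset.univ.exists_max_image (fun i => v ((sc a ρ (F i)).coeff (n i)))
    Finset.univ_nonempty
  refine card_bad hv (Fintype.equivFin ι).toEmbedding (fun i => (sc a ρ (F i)).coeff (n i₀)) i₀ s
    fun c hc => lt_of_not_ge fun hle => hs c hc fun γ hγ i => (hn i).mono ?_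
  refine (h0 i (Finset.mem_univ i)).trans (hle.trans ?_)
  have h1 := hγ (n i₀)
  simp only [vf, map_sum, map_mul, sc_C, finsetSum_coeff, coeff_C_mul] at h1
  exact h1

theorem exists_sd [IsAlgClosed K] (hv : Triv v) (h1 : ρ1 ≠ 0) (h12 : v ρ1 < v ρ2) {d : ℕ}
    {F : ι → K[X]} (hd : ∀ i, (F i).natDegree ≤ d) (h0 : ∃ i, F i ≠ 0)
    (hr : ∀ c < 2 * Fintype.card ι, vf F c ≠ 0 → ∀ y, (vf F c).eval y = 0 →
      v (y - a) < v ρ1 ∨ v ρ2 < v (y - a)) :
    ∃ (m e : ℕ) (s : K) (Pi Po : K[X]) (F1 F2 : ι → K[X]), s ≠ 0 ∧ m + e = d ∧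
      Sd v a ρ1 ρ2 m e Pi Po (fun i => C s * F i) F1 F2 := by
  classical
  obtain ⟨i₀, hi₀⟩ := h0
  have : Nonempty ι := ⟨i₀⟩
  let G : K → ℕ → Prop := fun ρ c => ∀ γ, Le v (sc a ρ (vf F c)) γ → ∀ i, Le v (sc a ρ (F i)) γ
  obtain ⟨c, hc, g1, g2⟩ : ∃ c < 2 * Fintype.card ι, G ρ1 c ∧ G ρ2 c := by
    by_contra hc
    push Not at hc
    have h2 := card_bad' hv (F := F) a ρ1 ((Finset.range (2 * Fintype.card ι)).filter
      fun c => ¬ G ρ1 c) fun c hc => (Finset.mem_filter.1 hc).2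
    have h3 := card_bad' hv (F := F) a ρ2 ((Finset.range (2 * Fintype.card ι)).filter
      fun c => G ρ1 c) fun c h => hc c (Finset.mem_range.1 (Finset.mem_filter.1 h).1)
        (Finset.mem_filter.1 h).2
    have h4 := Finset.card_filter_add_card_filter_not (s := Finset.range (2 * Fintype.card ι))
      fun c => G ρ1 c
    rw [Finset.card_range] at h4
    omega
  have hP : vf F c ≠ 0 := fun hP => by
    have h2 := (g1 0 (by rw [hP, map_zero]; exact le_zero _) i₀).eq_zero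
    refine (comp_eq_zero_iff.1 h2).elim hi₀ fun h4 => ?_
    have h5 := congrArg natDegree h4.2
    rw [natDegree_lin h1, natDegree_C] at h5
    exact one_ne_zero h5
  obtain ⟨m, e, s, Pi, Po, hs, hme, hS, hp⟩ := exists_spl (a := a) h1 h12 hP
    (natDegree_sum_le_of_forall_le _ _ fun i _ => (natDegree_C_mul_le _ _).trans (hd i))
    (hr c hc hP)
  choose F1 F2 hF using fun i => hS.exists_rel (σ := C s⁻¹ * F i)
    ((natDegree_C_mul_le _ _).trans (hme ▸ hd i))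
  have hb : ∀ ρ, Rad v a ρ m Pi Po → G ρ c → ∀ i, Bd v a ρ m Pi (F1 i) (F2 i) 1 :=
    fun ρ hρ g i => (hF i).bd_of_le hS.monic hS.di hρ (by
      have h2 := (g _ (by
        rw [hp, map_mul, map_mul, sc_C]
        exact (hρ.le_i.mul hρ.le_o).C_mul s) i).C_mul s⁻¹
      rwa [← mul_assoc, ← map_mul, inv_mul_cancel₀ hs, map_one, mul_one, ← sc_C (a := a) (ρ := ρ),
        ← map_mul] at h2)
  have hu := (Rel.sum hF fun i => (c : K) ^ (Fintype.equivFin ι i : ℕ)).unique hS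
    (τ1 := Pi) (τ2 := Po) (by
      convert Rel.self hS using 1
      rw [← one_mul (Pi * Po), ← C_1, ← inv_mul_cancel₀ hs, C_mul, mul_assoc, ← hp, vf,
        Finset.mul_sum]
      exact Finset.sum_congr rfl fun i _ => mul_left_comm _ _ _)
  have hl : ∀ i, v ((c : K) ^ (Fintype.equivFin ι i : ℕ)) ≤ 1 := fun i => by
    rw [map_pow]
    exact pow_le_one' (hv.le c) _
  refine ⟨m, e, s⁻¹, Pi, Po, F1, F2, inv_ne_zero hs, hme, hS, hF, hb _ hS.r1 g1, hb _ hS.r2 g2,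
    fun y => ?_, fun y => ?_⟩
  · rw [← hu.1, hv_sum]
    simpa only [hv_C_mul] using v_sum_le_nv hl
  · rw [← hu.2, hv_sum]
    simpa only [hv_C_mul] using v_sum_le_nv hl

theorem exists_mid [IsAlgClosed K] {x y : K} (hx : x ≠ 0) (h : v x < v y) :
    ∃ z, z ≠ 0 ∧ v x < v z ∧ v z < v y := by
  obtain ⟨z, hz⟩ := IsAlgClosed.exists_pow_nat_eq (x * y) (n := 2) two_pos
  have hx' : 0 < v x := zero_lt_iff.2 (by simpa using hx)
  have h1 : v z ^ 2 = v x * v y := by rw [← map_pow, hz, map_mul]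
  have h2 : v x < v z := lt_of_pow_lt_pow_left₀ 2 zero_le (by
    rw [h1, pow_two]
    exact mul_lt_mul_of_pos_left h hx')
  refine ⟨z, fun h0 => by simp [h0] at h2, h2, lt_of_pow_lt_pow_left₀ 2 zero_le ?_⟩
  rw [h1, pow_two]
  exact mul_lt_mul_of_pos_right h (hx'.trans h)

/-- an annulus between `b` and `r` which avoids a finite set -/
theorem exists_ann [IsAlgClosed K] {ρ R : K} (hρ : ρ ≠ 0) (h : v ρ < v R) (a : K) (S : Finset K) :
    ∃ ρ1 ρ2 y, ρ1 ≠ 0 ∧ v ρ < v ρ1 ∧ v ρ1 < v (y - a) ∧ v (y - a) < v ρ2 ∧ v ρ2 < v R ∧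
      ∀ t ∈ S, v (t - a) < v ρ1 ∨ v ρ2 < v (t - a) := by
  classical
  obtain ⟨x, hx, hm⟩ := (insert ρ ((S.image (· - a)).filter fun t => v t < v R)).exists_max_image
    v (Finset.insert_nonempty _ _)
  have h1 : v ρ ≤ v x := hm ρ (Finset.mem_insert_self _ _)
  have h2 : v x < v R := by
    rcases Finset.mem_insert.1 hx with rfl | hx
    · exact h
    · exact (Finset.mem_filter.1 hx).2
  have h3 : x ≠ 0 := fun h0 => hρ (by simpa [h0] using h1)
  obtain ⟨ρ2, -, h4, h5⟩ := exists_mid h3 h2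
  obtain ⟨ρ1, h6, h7, h8⟩ := exists_mid h3 h4
  obtain ⟨z, -, h9, h10⟩ := exists_mid h6 h8
  refine ⟨ρ1, ρ2, z + a, h6, h1.trans_lt h7, by simpa using h9, by simpa using h10, h5,
    fun t ht => ?_⟩
  rcases lt_or_ge (v (t - a)) (v R) with h11 | h11
  · exact Or.inl ((hm _ (Finset.mem_insert_of_mem (Finset.mem_filter.2
      ⟨Finset.mem_image_of_mem _ ht, h11⟩))).trans_lt h7)
  · exact Or.inr (h5.trans_le h11)

end Crest.Agent.X262.Drop30
private theorem rz_53700c7264 : type_of% @_root_.Crest.Agent.X262.Drop30.Mt.cf.eq_1 := @_root_.Crest.Agent.X262.Drop30.Mt.cf.eq_1 -- L158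
end

-- ▼ part X262/Drop30/Close
section

/-!
# Row 262, DROP (helper30), part 3: congruent configurations, two-sided configurations

* `Close V N z z' c` : congruent modulo the maximal ideal; `Close.geqN`;
* `nrm_bound`, `np_cfg`, `mul_cfg` : norming data;
* `tw` : points on the two components of a nodal curve; `gl_eq_tw`, `tw_bound`;
* `eqv_aff` : affine changes of the coordinate.
-/

set_option autoImplicit false
set_option linter.unusedSectionVars false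

noncomputable section

namespace Crest.Agent.X262.Drop30

open Crest.Agent.X277 Crest.Agent.X277.BD Crest.Agent.X262.Vb Crest.Agent.X262.Node22 Polynomial
open Crest.Agent.X277.BD.Cyc (Rf plV)
open Crest.Agent.X262.Bub96 (hv)
open Crest.Agent.X262.Bub96.Tr (dot)
open Crest.Agent.X262.Wd54 (NP Lat)
open Crest.Agent.X262.Vb.Cfg (GeqN Geq)

variable {J : Type} [Fintype J] [DecidableEq J] {io : J → Type} [∀ j, Fintype (io j)]
  [∀ j, DecidableEq (io j)] {K E : Type} [Field K] [Algebra ℂ K] [Field E] [Algebra ℂ E]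
  {I I' Q M : Type} [Fintype I] [Fintype I'] [Fintype Q] {N : ℕ}

theorem val_ln {y : Pnt io K} (h : NZ y) (j : J) (V : RZ ℂ K) :
    (ln y j).val V = nv V.v (y j) := by
  obtain ⟨i, hi⟩ := exists_ln h j V
  exact le_antisymm (hi ▸ le_nv _ i) (nv_le fun i => le_ln y j i V)

theorem np_geqN {w w' : Cfg io Q K} {g : I → Q} (h : NP N w g) (hw : w.NZ) (h' : GeqN N w w') :
    NP N w' g := by
  obtain ⟨c, hc, hy, hV⟩ := h'
  intro κ hκ σ hσ
  rw [hy]
  exact h.gau hw hc κ hκ σ (hV κ hκ ▸ hσ)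

theorem par_geqN {w w' : Cfg io Q K} (h : GeqN N w w') (q : Q) : Par (w'.y q) (w.y q) := by
  obtain ⟨c, hc, hy, -⟩ := h
  exact ⟨c q, hc q, congrFun hy q⟩

theorem lat_congr {z z₁ : Cfg io I K} {z' z₁' : Cfg io I' K} {m : M → I} {m' : M → I'}
    (h : Lat N z m z' m') (h1 : GeqN N z z₁) (h2 : GeqN N z' z₁') : Lat N z₁ m z₁' m' := by
  obtain ⟨Q, hQ, w, g, g', a1, a2, a3, a4, a5, a6, a7⟩ := h
  exact ⟨Q, hQ, w, g, g', a1, a2, a3, a4, GeqN.trans a5 h1, GeqN.trans a6 h2, fun q =>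
    ((par_geqN h1 _).trans (a7 q)).trans (par_geqN h2 _).symm⟩

theorem res_red {w : Cfg io Q K} {g : I → Q} (h : NP N w g) (hw : w.NZ) (p : Pl ℂ K ℂ E) :
    GeqN N ((w.red p).res g) ((w.res g).red p) :=
  GeqN.of_eq rfl fun _ hκ => h.red_V hw p hκ

/-- congruent configurations -/
structure Close (V : RZ ℂ K) (N : ℕ) (z z' : Cfg io Q K) (c : Q → J → K) : Prop where
  y : ∀ q j i, V.v (c q j * z.y q j i - z'.y q j i) < (ln (z'.y q) j).val V
  fwd : ∀ κ : J → ℕ, (∀ j, κ j ≤ N) → ∀ σ ∈ z.V κ, (∀ q, V.v (σ q) ≤ (lw κ (z.y q)).val V) →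
    ∃ σ' ∈ z'.V κ, ∀ q, V.v (chr (c q) κ * σ q - σ' q) < (lw κ (z'.y q)).val V
  fro : ∀ κ : J → ℕ, (∀ j, κ j ≤ N) → ∀ σ' ∈ z'.V κ, (∀ q, V.v (σ' q) ≤ (lw κ (z'.y q)).val V) →
    ∃ σ ∈ z.V κ, ∀ q, V.v (chr (c q) κ * σ q - σ' q) < (lw κ (z'.y q)).val V

theorem r_congr {p : Pl ℂ K ℂ E} {x y : K} (hy : y ∈ p.V.1) (h : p.V.v (x - y) < 1) :
    x ∈ p.V.1 ∧ p.r x = p.r y := by
  have h1 : x - y ∈ p.V.1 := RZ.le_one_iff.1 h.le
  have h2 : x ∈ p.V.1 := by simpa using add_mem h1 hy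
  exact ⟨h2, sub_eq_zero.1 (by rw [← Pl.r_sub h2 hy, Pl.r_eq_zero h1]; exact h)⟩

/-- **congruent configurations have the same reduction** -/
theorem Close.geqN {p : Pl ℂ K ℂ E} {z z' : Cfg io Q K} {c : Q → J → K}
    (h : Close p.V N z z' c) (hz' : z'.NZ) : z.NZ ∧ GeqN N (z.red p) (z'.red p) := by
  set c' := z'.nrm p.V with hc'
  have h0 : ∀ q j, c' q j ≠ 0 := Cfg.nrm_ne p.V z'
  have hP : (z'.gau c').Pr p.V := Cfg.pr_nrm hz' _
  have h1 : ∀ q j, p.V.v (c' q j) * (ln (z'.y q) j).val p.V = 1 := fun q j => by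
    rw [Prim.v_eq (hz' q) (h0 q) (hP q) j, inv_mul_cancel₀ (val_ne _ _)]
  have h2 : ∀ q κ, p.V.v (chr (c' q) κ) * (lw κ (z'.y q)).val p.V = 1 := fun q κ => by
    rw [val_lw, chr, map_prod, ← Finset.prod_mul_distrib]
    exact Finset.prod_eq_one fun j _ => by rw [map_pow, ← mul_pow, h1, one_pow]
  have h3 : ∀ q j i, p.V.v (c' q j * c q j * z.y q j i - c' q j * z'.y q j i) < 1 := fun q j i => by
    rw [mul_assoc, ← mul_sub, map_mul, ← h1 q j]
    exact mul_lt_mul_of_pos_left (h.y q j i) (RZ.pos (h0 q j))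
  have hP1 : (z.gau fun q j => c' q j * c q j).Pr p.V := fun q j =>
    ⟨fun i => (r_congr ((hP q j).1 i) (h3 q j i)).1, (hP q j).2.imp fun i hi =>
      Pl.r_ne_zero_iff.1 ((r_congr ((hP q j).1 i) (h3 q j i)).2 ▸ Pl.r_ne_zero_iff.2 hi)⟩
  have h4 : ∀ q j, ∃ i, c' q j * c q j * z.y q j i ≠ 0 := fun q => (hP1 q).nz
  have h5 : ∀ q j, c' q j * c q j ≠ 0 := fun q j => (h4 q j).elim fun _ => left_ne_zero_of_mul
  have hz : z.NZ := fun q j => (h4 q j).imp fun _ => right_ne_zero_of_mul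
  have h6 : ∀ q κ, p.V.v (chr (fun j => c' q j * c q j) κ) * (lw κ (z.y q)).val p.V = 1 :=
    fun q κ => by
      have h7 := (hP1 q).val_lw κ
      rwa [Cfg.gau_y, lw_scl (hz q) (h5 q), val_add, val_pr (chr_ne (h5 q) κ), mul_comm] at h7
  have h7 : ∀ q κ (a b : K), p.V.v (chr (c q) κ * a - b) < (lw κ (z'.y q)).val p.V →
      p.V.v (chr (fun j => c' q j * c q j) κ * a - chr (c' q) κ * b) < 1 := fun q κ a b hab => by
    rw [show chr (fun j => c' q j * c q j) κ = chr (c' q) κ * chr (c q) κ from chr_mul _ _ κ,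
      mul_assoc, ← mul_sub, map_mul, ← h2 q κ]
    exact mul_lt_mul_of_pos_left hab (RZ.pos (chr_ne (h0 q) κ))
  have h8 : ∀ {s a : K} {γ : p.V.1.ValueGroup}, s ≠ 0 → p.V.v s * γ = 1 → s * a ∈ p.V.1 →
      p.V.v a ≤ γ := fun hs h1 h2 => le_of_mul_le_mul_left
    (by rw [← map_mul, h1]; exact RZ.le_one_iff.2 h2) (RZ.pos hs)
  refine ⟨hz, (((Cfg.geq_gau z h5).red_red0 hP1).geqN N).trans (GeqN.of_eq ?_ fun κ hκ => ?_)⟩
  · funext q j i
    exact (r_congr ((hP q j).1 i) (h3 q j i)).2.symm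
  · refine le_antisymm (redS_le ?_) (redS_le ?_)
    · rintro _ ⟨σ', hσ', rfl⟩ hi
      obtain ⟨σ, hσ, he⟩ := h.fro κ hκ σ' hσ' fun q => h8 (chr_ne (h0 q) κ) (h2 q κ) (hi q)
      have h9 := fun q => r_congr (hi q) (h7 q κ _ _ (he q))
      exact (funext fun q => (h9 q).2 :) ▸ mem_redS p
        (scl_mem (c := fun q => chr (fun j => c' q j * c q j) κ) hσ) fun q => (h9 q).1
    · rintro _ ⟨σ, hσ, rfl⟩ hi
      obtain ⟨σ', hσ', he⟩ := h.fwd κ hκ σ hσ fun q => h8 (chr_ne (h5 q) κ) (h6 q κ) (hi q)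
      have h9 := fun q => r_congr (hi q) (p.V.v.map_sub_swap _ _ ▸ h7 q κ _ _ (he q))
      exact (funext fun q => (h9 q).2 :) ▸ mem_redS p
        (scl_mem (c := fun q => chr (c' q) κ) hσ') fun q => (h9 q).1

/-! ### data -/

variable {d m n : J → ℕ}

theorem mem_cfg {ξ : Dat io d I K} {κ : J → ℕ} {w : I → K} : w ∈ ξ.cfg.V κ ↔
    ∃ σ : K[X], σ.natDegree ≤ dot κ d ∧ w = fun q => hv (dot κ d) σ (ξ.x q) :=
  ⟨fun ⟨σ, h1, h2⟩ => ⟨σ, natDegree_le_of_degree_le (mem_degreeLE.1 h1), h2.symm⟩,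
    fun ⟨σ, h1, h2⟩ => ⟨σ, mem_degreeLE.2 (degree_le_of_natDegree_le h1), h2.symm⟩⟩

theorem nz_cfg (ξ : Dat io d I K) : ξ.cfg.NZ := fun _ => Vb37.nz_pt ξ _

theorem nrm_bound {ξ : Dat io d I K} {κ : J → ℕ} (h : ξ.Nrm κ) (W : RZ ℂ K) {σ : K[X]}
    (hσ : σ.natDegree ≤ dot κ d) {γ : W.1.ValueGroup}
    (hq : ∀ q, W.v (hv (dot κ d) σ (ξ.x q)) ≤ γ * (lw κ (ξ.pt (ξ.x q))).val W) (t : Option K) :
    W.v (hv (dot κ d) σ t) ≤ γ * (lw κ (ξ.pt t)).val W := by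
  obtain ⟨c, rfl⟩ := W.exists_v γ
  by_cases hc : c = 0
  · rw [Bub96.nrm_inj h hσ fun q => by simpa [hc] using hq q]
    cases t <;> simp
  · have h1 := h K (AlgHom.id ℂ K) W (C c⁻¹ * σ) ((natDegree_C_mul_le _ _).trans hσ)
    simp only [Vb37.dmap_id, hv_C_mul, map_mul, map_inv₀, inv_mul_le_iff₀ (RZ.pos hc)] at h1
    exact h1 hq t

theorem np_cfg {ξ : Dat io d Q K} {g : I → Q} (h : (ξ.res g).NrmUp N) : NP N ξ.cfg g := by
  intro κ hκ _ hσ W γ hq q
  obtain ⟨σ, h1, rfl⟩ := mem_cfg.1 hσ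
  exact nrm_bound (h κ hκ) W h1 hq _

theorem dot_single (j : J) (d : J → ℕ) : dot (Pi.single j 1) d = d j := by
  rw [dot, Finset.sum_eq_single j (fun j' _ h => by simp [h]) (by simp)]
  simp

theorem mul_cfg (ξ : Dat io d I K) : ξ.cfg.Mul where
  one := mem_cfg.2 ⟨1, by simp, funext fun q => by cases ξ.x q <;> simp [dot]⟩
  crd j i := mem_cfg.2 ⟨ξ.f j i, by rw [dot_single]; exact ξ.cp.1 j i, by rw [dot_single]; rfl⟩
  mul κ κ' u u' hu hu' := by
    obtain ⟨σ, h1, rfl⟩ := mem_cfg.1 hu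
    obtain ⟨σ', h1', rfl⟩ := mem_cfg.1 hu'
    have h2 : dot (κ + κ') d = dot κ d + dot κ' d := by
      simp [dot, add_mul, Finset.sum_add_distrib]
    exact mem_cfg.2 ⟨σ * σ', h2 ▸ natDegree_mul_le.trans (add_le_add h1 h1'),
      funext fun q => by rw [h2, hv_mul h1 h1']; rfl⟩

variable {I₁ I₂ : Type} [Fintype I₁] [Fintype I₂]

/-- points on the two components of a nodal curve -/
def tw (ξ₁ : Dat io m I₁ K) (ξ₂ : Dat io n I₂ K) (a : K) (u : Q → Option K ⊕ Option K) :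
    Cfg io Q K where
  y q := (u q).elim ξ₁.pt ξ₂.pt
  V κ :=
    { carrier := {w | ∃ σ₁ σ₂ : K[X], σ₁.natDegree ≤ dot κ m ∧ σ₂.natDegree ≤ dot κ n ∧
        σ₁.coeff (dot κ m) = σ₂.eval a ∧
        w = fun q => (u q).elim (hv (dot κ m) σ₁) (hv (dot κ n) σ₂)}
      add_mem' := by
        rintro _ _ ⟨σ₁, σ₂, h1, h2, h3, rfl⟩ ⟨τ₁, τ₂, h1', h2', h3', rfl⟩
        refine ⟨σ₁ + τ₁, σ₂ + τ₂, (natDegree_add_le _ _).trans (max_le h1 h1'),
          (natDegree_add_le _ _).trans (max_le h2 h2'), by simp [h3, h3'], funext fun q => ?_⟩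
        rw [Pi.add_apply]
        cases u q <;> simp [hv_add]
      zero_mem' := ⟨0, 0, by simp, by simp, by simp, funext fun q => by
        rcases u q with (_ | _) | (_ | _) <;> simp⟩
      smul_mem' := by
        rintro c _ ⟨σ₁, σ₂, h1, h2, h3, rfl⟩
        refine ⟨C c * σ₁, C c * σ₂, (natDegree_C_mul_le _ _).trans h1,
          (natDegree_C_mul_le _ _).trans h2, by simp [h3], funext fun q => ?_⟩
        rw [Pi.smul_apply]
        cases u q <;> simp [hv_C_mul] }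

variable {ξ₁ : Dat io m I₁ K} {ξ₂ : Dat io n I₂ K} {a : K} {u : Q → Option K ⊕ Option K}

theorem nz_tw : (tw ξ₁ ξ₂ a u).NZ := fun q => by
  change NZ ((u q).elim ξ₁.pt ξ₂.pt)
  cases u q <;> exact Vb37.nz_pt _ _

theorem tw_res (g : I → Q) : (tw ξ₁ ξ₂ a u).res g = tw ξ₁ ξ₂ a (u ∘ g) :=
  Cfg.ext (fun _ => rfl) fun κ => by
    ext w
    constructor
    · rintro ⟨_, ⟨σ₁, σ₂, h1, h2, h3, rfl⟩, rfl⟩
      exact ⟨σ₁, σ₂, h1, h2, h3, rfl⟩
    · rintro ⟨σ₁, σ₂, h1, h2, h3, rfl⟩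
      exact ⟨_, ⟨σ₁, σ₂, h1, h2, h3, rfl⟩, rfl⟩

theorem gl_eq_tw {n₁ : I₁} {n₂ : I₂} (h1 : ξ₁.x n₁ = none) (h2 : ξ₂.x n₂ = some a)
    (h : ξ₁.pt none = ξ₂.pt (some a)) : gl ξ₁ n₁ ξ₂ n₂ = tw ξ₁ ξ₂ a (Sum.map ξ₁.x ξ₂.x) := by
  refine Cfg.ext (fun q => by cases q <;> rfl) fun κ => ?_
  ext w
  rw [gl, mem_jn (c := 1) (by
    change ξ₁.pt (ξ₁.x n₁) = scl 1 (ξ₂.pt (ξ₂.x n₂))
    rw [h1, h2, h, scl_one]) (Vb37.nz_pt ξ₂ _), mem_pair, mem_cfg, mem_cfg, chr_one, one_mul]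
  constructor
  · rintro ⟨⟨⟨σ₁, a1, b1⟩, σ₂, a2, b2⟩, h3⟩
    refine ⟨σ₁, σ₂, a1, a2, ?_, funext fun q => ?_⟩
    · rwa [congrFun b1 n₁, congrFun b2 n₂, h1, h2] at h3
    · cases q with
      | inl q => exact congrFun b1 q
      | inr q => exact congrFun b2 q
  · rintro ⟨σ₁, σ₂, a1, a2, h3, rfl⟩
    refine ⟨⟨⟨σ₁, a1, rfl⟩, σ₂, a2, rfl⟩, ?_⟩
    change hv _ σ₁ (ξ₁.x n₁) = hv _ σ₂ (ξ₂.x n₂)
    rwa [h1, h2]

theorem np_tw {g : I₁ ⊕ I₂ → Q} (hg : u ∘ g = Sum.map ξ₁.x ξ₂.x) (h1 : ξ₁.NrmUp N)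
    (h2 : ξ₂.NrmUp N) : NP N (tw ξ₁ ξ₂ a u) g := by
  rintro κ hκ _ ⟨σ₁, σ₂, a1, a2, -, rfl⟩ W γ hq q
  have b1 := nrm_bound (h1 κ hκ) W a1 (γ := γ) fun q => by
    have h3 := hq (.inl q)
    simp only [tw, show u (g (.inl q)) = .inl (ξ₁.x q) from congrFun hg _] at h3
    exact h3
  have b2 := nrm_bound (h2 κ hκ) W a2 (γ := γ) fun q => by
    have h3 := hq (.inr q)
    simp only [tw, show u (g (.inr q)) = .inr (ξ₂.x q) from congrFun hg _] at h3
    exact h3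
  simp only [tw]
  cases u q with
  | inl t => exact b1 t
  | inr t => exact b2 t

theorem gl_geq {ζ₁ : Dat io m I₁ K} {ζ₂ : Dat io n I₂ K} (h1 : ξ₁.Eqv ζ₁) (h2 : ξ₂.Eqv ζ₂)
    (n₁ : I₁) (n₂ : I₂) : Geq (gl ξ₁ n₁ ξ₂ n₂) (gl ζ₁ n₁ ζ₂ n₂) := by
  obtain ⟨c₁, a1, b1⟩ := Vb37.eqv_cfg h1
  obtain ⟨c₂, a2, b2⟩ := Vb37.eqv_cfg h2
  have hc : ∀ q j, Sum.elim c₁ c₂ q j ≠ 0 := fun q => by
    cases q
    · exact a1 _
    · exact a2 _
  refine ⟨Sum.elim c₁ c₂, hc, ?_⟩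
  rw [gl, gl, jn_gau hc, pair_gau _ _ hc, b1, b2]
  rfl

theorem nz_gl (n₁ : I₁) (n₂ : I₂) : (gl ξ₁ n₁ ξ₂ n₂).NZ := fun q => by
  cases q <;> exact Vb37.nz_pt _ _

theorem mob_aff {e : ℕ} {f : K[X]} (h : f.natDegree ≤ e) (a ρ : K) :
    mob e !![ρ, a; 0, 1] f = sc a ρ f := by
  conv_rhs => rw [as_sum_range' f _ (Nat.lt_succ_of_le h), map_sum]
  refine Finset.sum_congr rfl fun l _ => ?_
  simp [← C_mul_X_pow_eq_monomial, add_comm]

theorem cp_aff {f : (j : J) → io j → K[X]} (h : Cp d f) {s : J → K} (hs : ∀ j, s j ≠ 0) (a : K)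
    {ρ : K} (hρ : ρ ≠ 0) : Cp d fun j i => C (s j) * sc a ρ (f j i) := by
  simpa only [mob_aff (h.1 _ _)] using
    Vb37.cp_mob h (g := !![ρ, a; 0, 1]) (by simpa using hρ) hs

theorem eqv_aff {ξ η : Dat io d I K} {s : J → K} (hs : ∀ j, s j ≠ 0) {ρ : K} (hρ : ρ ≠ 0)
    (hf : ∀ j i, η.f j i = C (s j) * sc a ρ (ξ.f j i))
    (hx : ∀ q, ξ.x q = (η.x q).map fun t => a + ρ * t) : ξ.Eqv η := by
  refine ⟨!![ρ, a; 0, 1], s, by simpa using hρ, hs, fun j i => by rw [hf, mob_aff (ξ.cp.1 j i)],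
    fun q => ?_⟩
  rw [hx]
  cases η.x q with
  | none => exact ⟨ρ, by funext i; fin_cases i <;> simp [Vb.hx]⟩
  | some t => exact ⟨1, by funext i; fin_cases i <;> simp [Vb.hx, add_comm, mul_comm]⟩

end Crest.Agent.X262.Drop30
end
end

-- ▼ part X262/Drop30/Core
section

/-!
# Row 262, DROP (helper30), part 4: the reduction of a datum is the reduction of its two sides
-/

set_option autoImplicit false
set_option linter.unusedSectionVars false

noncomputable section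

namespace Crest.Agent.X262.Drop30

open Crest.Agent.X277 Crest.Agent.X277.BD Crest.Agent.X262.Vb Crest.Agent.X262.Node22 Polynomial
open Crest.Agent.X277.BD.Cyc (Rf plV)
open Crest.Agent.X262.Bub96 (hv)
open Crest.Agent.X262.Bub96.Tr (dot)
open Crest.Agent.X262.Wd54 (NP Lat)
open Crest.Agent.X262.Vb.Cfg (GeqN Geq)

variable {J : Type} [Fintype J] [DecidableEq J] {io : J → Type} [∀ j, Fintype (io j)]
  [∀ j, DecidableEq (io j)] {K : Type} [Field K] [Algebra ℂ K]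
  {I I₁ I₂ Q M : Type} [Fintype I] [Fintype I₁] [Fintype I₂] [Fintype Q] {N : ℕ}
  {m n : J → ℕ} {V : RZ ℂ K} {a ρ1 ρ2 : K} {Pi Po : J → K[X]}

theorem triv (V : RZ ℂ K) : Triv V.v := fun n hn => by
  rw [← map_natCast (algebraMap ℂ K)]
  exact V.v_alg (Nat.cast_ne_zero.2 hn)

theorem lw_le {y : Pnt io K} (h : NZ y) (κ : J → ℕ) {γ : J → V.1.ValueGroup}
    (hγ : ∀ j, nv V.v (y j) ≤ γ j) : (lw κ y).val V ≤ ∏ j, γ j ^ κ j := by
  rw [val_lw]
  exact Finset.prod_le_prod' fun j _ => pow_le_pow_left' ((val_ln h j V).trans_le (hγ j)) _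

theorem le_lw {y : Pnt io K} (h : NZ y) (κ : J → ℕ) {c : J → K}
    (hc : ∀ j, V.v (c j) ≤ nv V.v (y j)) : V.v (∏ j, c j ^ κ j) ≤ (lw κ y).val V := by
  rw [val_lw, map_prod]
  exact Finset.prod_le_prod' fun j _ => by
    rw [map_pow]
    exact pow_le_pow_left' ((hc j).trans_eq (val_ln h j V).symm) _

theorem prod_pow_dot {Γ : Type*} [CommMonoid Γ] (γ : Γ) (κ m : J → ℕ) :
    ∏ j, (γ ^ m j) ^ κ j = γ ^ dot κ m := by
  simp only [← pow_mul, Finset.prod_pow_eq_pow_sum, dot, mul_comm (m _)]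

theorem hv_prod_pow {P : J → K[X]} (h : ∀ j, (P j).natDegree ≤ m j) (κ : J → ℕ) (y : Option K) :
    hv (dot κ m) (∏ j, P j ^ κ j) y = ∏ j, hv (m j) (P j) y ^ κ j :=
  (hv_prod _ (fun j => natDegree_pow_le_of_le _ (h j)) y).trans
    (Finset.prod_congr rfl fun j _ => hv_pow (h j) _ y)

variable [IsAlgClosed K] {ξ : Dat io (fun j => m j + n j) Q K} {ξ₁ : Dat io m I₁ K}
  {ξ₂ : Dat io n I₂ K}

/-- **a datum is congruent to its two sides** -/
theorem close_side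
    (h : ∀ j, Sd V.v a ρ1 ρ2 (m j) (n j) (Pi j) (Po j) (ξ.f j) (ξ₁.f j) (ξ₂.f j))
    (h1 : ρ1 ≠ 0) (h2 : ρ2 ≠ 0) (μ : Q → Mt K) (hμ : ∀ q, (μ q).Ok V.v a ρ1 ρ2)
    (hx : ∀ q, ξ.x q = (μ q).y) (hN : ξ.NrmUp N) {g : I₁ ⊕ I₂ → Q}
    (hg : (fun q => (μ q).u) ∘ g = Sum.map ξ₁.x ξ₂.x) (hN₁ : ξ₁.NrmUp N) (hN₂ : ξ₂.NrmUp N) :
    Close V N ξ.cfg (tw ξ₁ ξ₂ a fun q => (μ q).u) fun q j => (μ q).cf (m j) (Pi j) (Po j) := by
  have hS : ∀ κ : J → ℕ, Spl V.v a ρ1 ρ2 (dot κ m) (dot κ n) (∏ j, Pi j ^ κ j) (∏ j, Po j ^ κ j) :=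
    fun κ => Spl.prod h1 h2 _ fun j => (h j).spl.pow _
  have key : ∀ (κ : J → ℕ) (σ σ1 σ2 : K[X]),
      Rel a (dot κ m) (dot κ n) (∏ j, Pi j ^ κ j) (∏ j, Po j ^ κ j) σ σ1 σ2 →
      (∀ ρ, Rad V.v a ρ (dot κ m) (∏ j, Pi j ^ κ j) (∏ j, Po j ^ κ j) →
        (∀ j i, Rad V.v a ρ (m j) (Pi j) (Po j) ∧
          Bd V.v a ρ (m j) (Pi j) (ξ₁.f j i) (ξ₂.f j i) 1) →
        Bd V.v a ρ (dot κ m) (∏ j, Pi j ^ κ j) σ1 σ2 1) →
      ∀ q, V.v (chr (fun j => (μ q).cf (m j) (Pi j) (Po j)) κ *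
          hv (dot κ fun j => m j + n j) σ (ξ.x q) -
          (μ q).u.elim (hv (dot κ m) σ1) (hv (dot κ n) σ2)) <
        (lw κ ((μ q).u.elim ξ₁.pt ξ₂.pt)).val V := fun κ σ σ1 σ2 hR hB q => by
    rw [Bub96.Tr.dot_add, hx, chr, ← Mt.cf_prod κ m Pi Po fun j => (h j).spl.di.le]
    refine Mt.est (hS κ) hR (hB _ (hS κ).r1 fun j i => ⟨(h j).spl.r1, (h j).b1 i⟩)
      (hB _ (hS κ).r2 fun j i => ⟨(h j).spl.r2, (h j).b2 i⟩) (hμ q) (val_ne _ _) ?_
    cases (μ q).u with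
    | inl t =>
      rw [Sum.elim_inl, Sum.elim_inl, hv_prod_pow fun j => (h j).spl.di.le]
      exact le_lw (Vb37.nz_pt _ _) κ fun j => (h j).hi t
    | inr t =>
      rw [Sum.elim_inr, Sum.elim_inr, hv_prod_pow fun j => (h j).spl.dO]
      exact le_lw (Vb37.nz_pt _ _) κ fun j => (h j).ho t
  refine ⟨fun q j i => ?_, fun κ hκ w hw hb => ?_, ?_⟩
  · have h3 := Mt.est (η := (ln ((μ q).u.elim ξ₁.pt ξ₂.pt) j).val V) (h j).spl ((h j).rel i)
      ((h j).b1 i) ((h j).b2 i) (hμ q) (val_ne _ _) (by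
        cases (μ q).u with
        | inl t => exact ((h j).hi t).trans_eq (val_ln (Vb37.nz_pt ξ₁ t) j V).symm
        | inr t => exact ((h j).ho t).trans_eq (val_ln (Vb37.nz_pt ξ₂ t) j V).symm)
    rw [← hx] at h3
    simp only [tw]
    revert h3
    cases (μ q).u <;> exact id
  · obtain ⟨σ, hσ, rfl⟩ := mem_cfg.1 hw
    have hall := nrm_bound (hN κ hκ) V hσ (γ := 1) fun q => (hb q).trans_eq (one_mul _).symm
    obtain ⟨σ1, σ2, hR⟩ := (hS κ).exists_rel (σ := σ) (by rwa [← Bub96.Tr.dot_add])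
    refine ⟨_, ⟨σ1, σ2, hR.d1, hR.d2, hR.node, rfl⟩, key κ σ σ1 σ2 hR fun ρ hρ hB =>
      hR.bd_of_le (hS κ).monic (hS κ).di hρ (circ (triv V) fun y hy => ?_)⟩
    refine (hall (some y)).trans (mul_le_mul' le_rfl ?_)
    rw [← prod_pow_dot]
    exact lw_le (Vb37.nz_pt _ _) κ fun j => nv_circ hρ.ne (fun i => by
      simpa only [one_mul] using ((h j).rel i).le_of_bd (hB j i).1 (hB j i).2) hy
  · rintro κ hκ _ ⟨σ1, σ2, d1, d2, hn, rfl⟩ hb
    have hR := Spl.rel_mk (Pi := ∏ j, Pi j ^ κ j) (Po := ∏ j, Po j ^ κ j) d1 d2 hn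
    have b1 := nrm_bound (hN₁ κ hκ) V d1 (γ := 1) fun q => by
      have h3 := hb (g (.inl q))
      simp only [tw, show (μ (g (.inl q))).u = .inl (ξ₁.x q) from congrFun hg _] at h3
      exact h3.trans_eq (one_mul _).symm
    have b2 := nrm_bound (hN₂ κ hκ) V d2 (γ := 1) fun q => by
      have h3 := hb (g (.inr q))
      simp only [tw, show (μ (g (.inr q))).u = .inr (ξ₂.x q) from congrFun hg _] at h3
      exact h3.trans_eq (one_mul _).symm
    refine ⟨_, mem_cfg.2 ⟨_, by rw [Bub96.Tr.dot_add]; exact hR.natDegree_le (hS κ), rfl⟩,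
      key κ _ σ1 σ2 hR fun ρ hρ hB => hR.bd_of_pair hρ (circ (triv V) fun y hy => ?_)
        (circ (triv V) fun y hy => ?_)⟩
    · refine (b1 (some y)).trans (mul_le_mul' le_rfl ?_)
      rw [← prod_pow_dot]
      exact lw_le (Vb37.nz_pt _ _) κ fun j => nv_circ hρ.ne (fun i => by
        simpa only [one_mul] using ((h j).rel i).le1_of_bd (hB j i).1 (hB j i).2) hy
    · refine (b2 (some y)).trans ?_
      simpa using lw_le (Vb37.nz_pt ξ₂ (some y)) κ (γ := fun _ => 1)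
        fun j => nv_circ hρ.ne (fun i => (hB j i).2.o) hy

/-- inside the outer circle -/
def Ins (V : RZ ℂ K) (a ρ : K) (y : Option K) : Prop := ∃ t, y = some t ∧ V.v (t - a) < V.v ρ

theorem out_of_not (h : V.v ρ1 < V.v ρ2) {y : Option K} (hy : ¬ Ins V a ρ2 y) :
    Out V.v a ρ1 y := fun t ht => h.trans_le (le_of_not_gt fun h1 => hy ⟨t, ht, h1⟩)

theorem lat_side0 {ξ : Dat io (fun j => m j + n j) I K}
    (h : ∀ j, Sd V.v a ρ1 ρ2 (m j) (n j) (Pi j) (Po j) (ξ.f j) (ξ₁.f j) (ξ₂.f j))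
    (h1 : ρ1 ≠ 0) {y : K} (hy : V.v ρ1 < V.v (y - a)) (hy' : V.v (y - a) < V.v ρ2)
    (hN : ξ.NrmUp N) (hN₁ : ξ₁.NrmUp N) (hN₂ : ξ₂.NrmUp N) {n₁ : I₁} {n₂ : I₂}
    (e₁ : ξ₁.x n₁ = none) (e₂ : ξ₂.x n₂ = some a) (g : M → I) (g' : M → I₁ ⊕ I₂)
    (hg : ∀ i, (g' i).elim (fun q => Ins V a ρ2 (ξ₁.x q) ∧ ξ₁.x q = ξ.x (g i))
      fun q => Out V.v a ρ1 (ξ₂.x q) ∧ ξ₂.x q = ξ.x (g i)) :
    Lat N (ξ.cfg.red (plV V)) g ((gl ξ₁ n₁ ξ₂ n₂).red (plV V)) g' := by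
  have h12 := hy.trans hy'
  have h2 : ρ2 ≠ 0 := fun h0 => by simp [h0] at h12
  have c0 : ∀ x : Option K, ∃ μ : Mt K, μ.Ok V.v a ρ1 ρ2 ∧ μ.y = x := fun x => by
    by_cases hx : Ins V a ρ2 x
    · obtain ⟨t, rfl, ht⟩ := hx
      exact ⟨.ins t, ht, rfl⟩
    · exact ⟨.out x, out_of_not h12 hx, rfl⟩
  have c1 : ∀ x : Option K, ∃ μ : Mt K, μ.Ok V.v a ρ1 ρ2 ∧ μ.u = .inl x ∧
      (Ins V a ρ2 x → μ.y = x) := fun x => by
    by_cases hx : Ins V a ρ2 x
    · obtain ⟨t, rfl, ht⟩ := hx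
      exact ⟨.ins t, ht, rfl, fun _ => rfl⟩
    · exact ⟨.nin y x, ⟨hy, hy', out_of_not h12 hx⟩, rfl, fun h0 => (hx h0).elim⟩
  have c2 : ∀ x : Option K, ∃ μ : Mt K, μ.Ok V.v a ρ1 ρ2 ∧ μ.u = .inr x ∧
      (Out V.v a ρ1 x → μ.y = x) := fun x => by
    by_cases hx : Out V.v a ρ1 x
    · exact ⟨.out x, hx, rfl, fun _ => rfl⟩
    · obtain ⟨t, rfl, ht⟩ : Ins V a ρ2 x := by_contra fun h0 => hx (out_of_not h12 h0)
      exact ⟨.nout y t, ⟨hy, hy', ht⟩, rfl, fun h0 => (hx h0).elim⟩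
  choose μ0 a0 b0 using c0
  choose μ1 a1 b1 d1 using c1
  choose μ2 a2 b2 d2 using c2
  let μ : I ⊕ I₁ ⊕ I₂ → Mt K :=
    Sum.elim (fun q => μ0 (ξ.x q)) (Sum.elim (fun q => μ1 (ξ₁.x q)) fun q => μ2 (ξ₂.x q))
  let ξ' : Dat io (fun j => m j + n j) (I ⊕ I₁ ⊕ I₂) K := ⟨ξ.f, fun q => (μ q).y, ξ.cp⟩
  have r1 : ξ'.res Sum.inl = ξ := Vb37.dat_ext rfl (funext fun q => b0 _)
  have r2 : (fun q => (μ q).u) ∘ Sum.inr = Sum.map ξ₁.x ξ₂.x := funext fun q => by
    cases q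
    · exact b1 _
    · exact b2 _
  have n1 : NP N ξ'.cfg Sum.inl := np_cfg (r1.symm ▸ hN)
  have n2 := np_tw (a := a) r2 hN₁ hN₂
  have hC := ((close_side (ξ := ξ') h h1 h2 μ (fun q => by
    rcases q with q | q | q
    exacts [a0 _, a1 _, a2 _]) (fun _ => rfl) (Vb37.nrmUp_of_res _ (r1.symm ▸ hN)) r2 hN₁
    hN₂).geqN (p := plV V) nz_tw).2
  have g1 : GeqN N ((ξ'.cfg.red (plV V)).res Sum.inl) (ξ.cfg.red (plV V)) := by
    have h3 := res_red n1 (nz_cfg _) (plV V)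
    rwa [← Vb37.cfg_res, r1] at h3
  have g2 : GeqN N ((ξ'.cfg.red (plV V)).res Sum.inr) ((gl ξ₁ n₁ ξ₂ n₂).red (plV V)) := by
    have h3 := (hC.res Sum.inr).trans (res_red n2 nz_tw (plV V))
    rwa [tw_res, r2, ← gl_eq_tw e₁ e₂ (funext fun j => funext fun i => ((h j).rel i).node)] at h3
  refine ⟨_, inferInstance, ξ'.cfg.red (plV V), Sum.inl, Sum.inr, (nz_cfg _).red _,
    .of_cfg ((mul_cfg _).red (nz_cfg _) _), n1.red (nz_cfg _) V,
    np_geqN (n2.red nz_tw V) (nz_tw.red _) hC.symm, g1, g2, fun i => ?_⟩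
  refine ((par_geqN g1 _).trans ?_).trans (par_geqN g2 _).symm
  have h3 : (μ (.inl (g i))).y = (μ (.inr (g' i))).y := by
    have h4 := hg i
    revert h4
    rcases g' i with q | q
    · exact fun h4 => (b0 _).trans (h4.2.symm.trans (d1 _ h4.1).symm)
    · exact fun h4 => (b0 _).trans (h4.2.symm.trans (d2 _ h4.1).symm)
  change Par (Wd54.rp _ (ξ'.pt (μ (.inl (g i))).y)) (Wd54.rp _ (ξ'.pt (μ (.inr (g' i))).y))
  rw [h3]
  exact Par.refl _

theorem sc_zero_one (f : K[X]) : sc 0 1 f = f := by simp [sc_apply]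

/-- **the reduction of a datum is the reduction of its normalised sides** -/
theorem lat_side {d : J → ℕ} (hd : ∀ j, m j + n j = d j) {ξ : Dat io d I K} {s : J → K}
    (hs : ∀ j, s j ≠ 0) {F1 F2 : (j : J) → io j → K[X]}
    (h : ∀ j, Sd V.v a ρ1 ρ2 (m j) (n j) (Pi j) (Po j) (fun i => C (s j) * ξ.f j i) (F1 j) (F2 j))
    (h1 : ρ1 ≠ 0) {y : K} (hy : V.v ρ1 < V.v (y - a)) (hy' : V.v (y - a) < V.v ρ2)
    {ζ₁ : Dat io m I₁ K} {ζ₂ : Dat io n I₂ K} {s₁ s₂ : J → K} (hs₁ : ∀ j, s₁ j ≠ 0)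
    (hs₂ : ∀ j, s₂ j ≠ 0) {ρ R : K} (hρ : ρ ≠ 0) (hR : R ≠ 0)
    (f₁ : ∀ j i, ζ₁.f j i = C (s₁ j) * sc a ρ (F1 j i))
    (f₂ : ∀ j i, ζ₂.f j i = C (s₂ j) * sc a R (F2 j i))
    (hN : ξ.NrmUp N) (hN₁ : ζ₁.NrmUp N) (hN₂ : ζ₂.NrmUp N) {n₁ : I₁} {n₂ : I₂}
    (e₁ : ζ₁.x n₁ = none) (e₂ : ζ₂.x n₂ = some 0) (g : M → I) (g' : M → I₁ ⊕ I₂)
    (hg : ∀ i, (g' i).elim (fun q => Ins V a ρ2 (ξ.x (g i)) ∧ ζ₁.x q = nx a ρ (ξ.x (g i)))
      fun q => Out V.v a ρ1 (ξ.x (g i)) ∧ ζ₂.x q = nx a R (ξ.x (g i))) :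
    Lat N (ξ.cfg.red (plV V)) g ((gl ζ₁ n₁ ζ₂ n₂).red (plV V)) g' := by
  obtain rfl : (fun j => m j + n j) = d := funext hd
  have hc : ∀ j t, ∃ i, hv (m j + n j) (C (s j) * ξ.f j i) t ≠ 0 := fun j t =>
    (Vb37.cp_hv ξ.cp j t).imp fun i hi => by rw [hv_C_mul]; exact mul_ne_zero (hs j) hi
  let ξ₀ : Dat io (fun j => m j + n j) I K := ⟨fun j i => C (s j) * ξ.f j i, ξ.x, by
    simpa only [sc_zero_one] using cp_aff ξ.cp hs 0 one_ne_zero⟩
  let ξ₁ : Dat io m I₁ K := ⟨F1, fun q => (ζ₁.x q).map fun t => a + ρ * t,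
    Vb37.cp_of_closed (RingHom.id K) (fun j i => ((h j).rel i).d1) fun j t => by
      simpa only [Polynomial.map_id] using (h j).cop1 (hc j) t⟩
  let ξ₂ : Dat io n I₂ K := ⟨F2, fun q => (ζ₂.x q).map fun t => a + R * t,
    Vb37.cp_of_closed (RingHom.id K) (fun j i => ((h j).rel i).d2) fun j t => by
      simpa only [Polynomial.map_id] using (h j).cop2 (hc j) t⟩
  have q0 : ξ.Eqv ξ₀ := eqv_aff (a := 0) hs one_ne_zero (fun j i => by rw [sc_zero_one])
    fun q => by simp [ξ₀]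
  have q1 : ξ₁.Eqv ζ₁ := eqv_aff hs₁ hρ f₁ fun _ => rfl
  have q2 : ξ₂.Eqv ζ₂ := eqv_aff hs₂ hR f₂ fun _ => rfl
  have hx : ∀ {r : K}, r ≠ 0 → ∀ x : Option K, ((nx a r x).map fun t => a + r * t) = x :=
    fun hr x => by cases x <;> simp [nx, mul_div_cancel₀ _ hr]
  have h2 := lat_side0 (ξ := ξ₀) (ξ₁ := ξ₁) (ξ₂ := ξ₂) h h1 hy hy' (Vb37.eqv_nrmUp q0 hN)
    (Vb37.eqv_nrmUp (Vb37.eqv_symm q1) hN₁) (Vb37.eqv_nrmUp (Vb37.eqv_symm q2) hN₂) (n₁ := n₁)
    (n₂ := n₂) (by simp [ξ₁, e₁]) (by simp [ξ₂, e₂]) g g' fun i => by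
      have h4 := hg i
      revert h4
      rcases g' i with q | q
      · intro h4
        have h5 : ξ₁.x q = ξ.x (g i) := by simp only [ξ₁, h4.2, hx hρ]
        exact ⟨h5 ▸ h4.1, h5⟩
      · intro h4
        have h5 : ξ₂.x q = ξ.x (g i) := by simp only [ξ₂, h4.2, hx hR]
        exact ⟨h5 ▸ h4.1, h5⟩
  exact lat_congr h2 ((Geq.red (Geq.symm (Vb37.eqv_cfg q0)) (nz_cfg _) _).geqN N)
    (((gl_geq q1 q2 n₁ n₂).red (nz_gl _ _) _).geqN N)

end Crest.Agent.X262.Drop30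
end
end

-- ▼ part X262/DropP/Main
section

/-!
# Row 262, DROP: the parameters of a glued pair (helper9)

`prmStmt : Drop30.PrmStmt io` and `ktStmt : Drop30.KtStmt io`.
-/

set_option autoImplicit false
set_option linter.unusedSectionVars false

noncomputable section

namespace Crest.Agent.X262.DropP

open Crest.Agent.X277 Crest.Agent.X277.BD Crest.Agent.X262.Vb Crest.Agent.X262.Node22 Polynomial
open Crest.Agent.X262.Drop30
open Crest.Agent.X262.Bub96 (hv)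

variable {J : Type} [Fintype J] [DecidableEq J] {io : J → Type} [∀ j, Fintype (io j)]
  [∀ j, DecidableEq (io j)]
variable {K : Type} [Field K] [Algebra ℂ K] {d m n : J → ℕ} {M M₁ M₂ : Type}

/-! ### the number of parameters -/

theorem card_marks [Fintype M] {a b c : M} (hab : a ≠ b) (hac : a ≠ c) (hbc : b ≠ c) :
    Nat.card {q : M // q ≠ a ∧ q ≠ b ∧ q ≠ c} + 3 = Fintype.card M := by
  classical
  have h3 : ({a, b, c} : Finset M).card = 3 :=
    Finset.card_eq_three.mpr ⟨a, b, c, hab, hac, hbc, rfl⟩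
  rw [Nat.card_eq_fintype_card, ← h3, add_comm,
    ← Finset.card_add_card_compl ({a, b, c} : Finset M), Fintype.card_subtype]
  congr 2; ext q; simp

theorem sum_mdim (i₀ : (j : J) → io j) (m : J → ℕ) :
    ∑ j, (Fintype.card (io j) * (m j + 1) - 1) = ∑ j, Fintype.card (io j) * m j + dimP io := by
  rw [dimP, ← Finset.sum_add_distrib]
  refine Finset.sum_congr rfl fun j _ => ?_
  have : 0 < Fintype.card (io j) := Fintype.card_pos_iff.2 ⟨i₀ j⟩
  rw [mul_add, mul_one]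
  omega

theorem card_Px [Fintype M₁] [Fintype M₂] (i₀ : (j : J) → io j) (m n : J → ℕ) {n₁ a b : M₁}
    {o n₂ e : M₂} (h₁ : n₁ ≠ a ∧ n₁ ≠ b ∧ a ≠ b) (h₂ : o ≠ n₂ ∧ o ≠ e ∧ n₂ ≠ e) :
    Nat.card (Px i₀ m n n₁ a b o n₂ e) + dimP io =
      mdim io m (Fintype.card M₁) + mdim io n (Fintype.card M₂) := by
  have e1 : ∀ m : J → ℕ, Nat.card (Σ j, io j × Fin (m j)) = ∑ j, Fintype.card (io j) * m j :=
    fun m => by simp [Nat.card_eq_fintype_card, Fintype.card_sigma]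
  have e2 : Nat.card (Σ j, {i : io j // i ≠ i₀ j}) = dimP io := by
    simp [Nat.card_eq_fintype_card, Fintype.card_sigma, dimP]
  have e3 := card_marks h₁.1 h₁.2.1 h₁.2.2
  have e4 := card_marks h₂.1 h₂.2.1 h₂.2.2
  rw [Nat.card_sum, Nat.card_sum, Nat.card_sum, Nat.card_sum, e1, e1, e2, mdim, mdim,
    sum_mdim i₀, sum_mdim i₀]
  omega

/-! ### the field of the parameters -/

section Key

variable {i₀ : (j : J) → io j} {n₁ a b : M₁} {o n₂ e : M₂} {f₁ f₂ : (j : J) → io j → K[X]}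
  {x₁ : M₁ → Option K} {x₂ : M₂ → Option K} {E : IntermediateField ℂ K}

theorem key₁ (hE : Set.range (prm i₀ m n n₁ a b o n₂ e f₁ f₂ x₁ x₂) ⊆ E)
    (hd : ∀ j i, (f₁ j i).natDegree ≤ m j) (j : J) (i : io j) (l : ℕ) :
    (f₁ j i).coeff l / (f₁ j (i₀ j)).coeff (m j) ∈ E := by
  rcases lt_trichotomy l (m j) with hl | rfl | hl
  · exact hE ⟨.inl ⟨j, i, ⟨l, hl⟩⟩, rfl⟩
  · by_cases hi : i = i₀ j
    · rw [hi]
      by_cases h0 : (f₁ j (i₀ j)).coeff (m j) = 0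
      · rw [h0, div_zero]; exact E.zero_mem
      · rw [div_self h0]; exact E.one_mem
    · exact hE ⟨.inr (.inr (.inl ⟨j, i, hi⟩)), rfl⟩
  · rw [coeff_eq_zero_of_natDegree_lt ((hd j i).trans_lt hl), zero_div]
    exact E.zero_mem

theorem key₂ (hE : Set.range (prm i₀ m n n₁ a b o n₂ e f₁ f₂ x₁ x₂) ⊆ E)
    (hd₁ : ∀ j i, (f₁ j i).natDegree ≤ m j) (hd : ∀ j i, (f₂ j i).natDegree ≤ n j) {c : J → K}
    (hc : ∀ j, c j ≠ 0) (hp : ∀ j i, (f₁ j i).coeff (m j) = c j * (f₂ j i).coeff 0) (j : J)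
    (i : io j) (l : ℕ) : (f₂ j i).coeff l / (f₂ j (i₀ j)).coeff 0 ∈ E := by
  rcases l with _ | l
  · have h := key₁ hE hd₁ j i (m j)
    rwa [hp, hp, mul_div_mul_left _ _ (hc j)] at h
  · by_cases hl : l < n j
    · exact hE ⟨.inr (.inl ⟨j, i, ⟨l, hl⟩⟩), rfl⟩
    · rw [coeff_eq_zero_of_natDegree_lt ((hd j i).trans_lt (by omega)), zero_div]
      exact E.zero_mem

theorem pt_mem {x : M → Option K} {p q r : M} (hp : x p = none ∨ x p = some 0 ∨ x p = some 1)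
    (hq : x q = none ∨ x q = some 0 ∨ x q = some 1) (hr : x r = none ∨ x r = some 0 ∨ x r = some 1)
    (h : ∀ s, s ≠ p ∧ s ≠ q ∧ s ≠ r → (x s).getD 0 ∈ E) (s : M) (t : K) (hs : x s = some t) :
    t ∈ E := by
  have key : ∀ u, (x u = none ∨ x u = some 0 ∨ x u = some 1) → s = u → t ∈ E := by
    rintro u (hu | hu | hu) rfl <;> rw [hu] at hs <;> cases hs
    exacts [E.zero_mem, E.one_mem]
  by_cases h1 : s = p
  · exact key p hp h1
  by_cases h2 : s = q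
  · exact key q hq h2
  by_cases h3 : s = r
  · exact key r hr h3
  simpa [hs] using h s ⟨h1, h2, h3⟩

theorem rat_sub {f : (j : J) → io j → K[X]} {s : J → K} (hs : ∀ j, s j ≠ 0)
    (h : ∀ j i l, (f j i).coeff l / s j ∈ E) : rat f ⊆ E := by
  rintro _ ⟨j, i, i', l, l', rfl⟩
  rw [← div_div_div_cancel_right₀ (hs j)]
  exact E.div_mem (h j i l) (h j i' l')

theorem getD_mem {x : Option K} (h : ∀ t, x = some t → t ∈ E) : x.getD 0 ∈ E := by
  cases x with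
  | none => exact E.zero_mem
  | some t => exact h t rfl

theorem prm_sub (h₁ : rat f₁ ⊆ E) (h₂ : rat f₂ ⊆ E) (hx₁ : ∀ q t, x₁ q = some t → t ∈ E)
    (hx₂ : ∀ q t, x₂ q = some t → t ∈ E) :
    Set.range (prm i₀ m n n₁ a b o n₂ e f₁ f₂ x₁ x₂) ⊆ E := by
  rintro _ ⟨p | p | p | q | q, rfl⟩
  · exact h₁ ⟨_, _, _, _, _, rfl⟩
  · exact h₂ ⟨_, _, _, _, _, rfl⟩
  · exact h₁ ⟨_, _, _, _, _, rfl⟩
  · exact getD_mem (hx₁ _)
  · exact getD_mem (hx₂ _)

end Key

/-- descent of a datum with a prescribed normalisation -/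
theorem desc (η : Dat io d M K) (E : IntermediateField ℂ K) {s : J → K} (hs : ∀ j, s j ≠ 0)
    (h : ∀ j i l, (η.f j i).coeff l / s j ∈ E) (hx : ∀ q t, η.x q = some t → t ∈ E) :
    ∃ ζ : Dat io d M E, (∀ j i, (ζ.map E.val).f j i = C (s j)⁻¹ * η.f j i) ∧
      (ζ.map E.val).x = η.x := by
  have hf : ∀ j i, ∃ p : E[X], p.map (E.val : E →+* K) = C (s j)⁻¹ * η.f j i := by
    intro j i
    rw [← mem_lifts, lifts_iff_coeff_lifts]
    intro l
    exact ⟨⟨_, h j i l⟩, by simp [div_eq_inv_mul]⟩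
  choose f hf using hf
  have hp : ∀ q, ∃ t : Option E, t.map E.val = η.x q := by
    intro q
    rcases h : η.x q with _ | t
    · exact ⟨none, rfl⟩
    · exact ⟨some ⟨t, hx q t h⟩, rfl⟩
  choose x hx using hp
  have hcp : Cp d f := by
    let α := algebraMap K (AlgebraicClosure K)
    refine Vb37.cp_of_closed (α.comp (E.val : E →+* K)) (fun j i => ?_) fun j t => ?_
    · rw [← natDegree_map (E.val : E →+* K), hf]
      exact (natDegree_C_mul_le _ _).trans (η.cp.1 j i)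
    · obtain ⟨i, hi⟩ := Vb37.cp_hv (η.cp.map α) j t
      refine ⟨i, ?_⟩
      rw [← Polynomial.map_map, hf, Polynomial.map_mul, map_C, Vb37.hv_C_mul]
      exact mul_ne_zero ((_root_.map_ne_zero α).2 (inv_ne_zero (hs j))) hi
  exact ⟨⟨f, x, hcp⟩, hf, _root_.funext hx⟩

theorem nml_of_map {k : Type} [Field k] [Algebra ℂ k] {α : k →ₐ[ℂ] K} {ζ : Dat io d M k}
    {η : Dat io d M K} (h : (ζ.map α).x = η.x) {p q r : M} (hn : Nml η p q r) : Nml ζ p q r := by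
  have hi : Function.Injective (Option.map α) := Option.map_injective (α : k →+* K).injective
  have e : ∀ s, (ζ.x s).map α = η.x s := fun s => congrFun h s
  exact ⟨hi (by rw [e, hn.1]; rfl), hi (by rw [e, hn.2.1]; simp), hi (by rw [e, hn.2.2]; simp)⟩

theorem prmStmt : PrmStmt io := by
  intro m n M₁ M₂ K _ _ _ _ η₁ η₂ n₁ a b o n₂ e i₀ h₁ h₂ hpar h0
  have hcard := card_Px i₀ m n (Vb37.Nm3.ne h₁) (Vb37.Nm3.ne h₂)
  refine ⟨hcard, fun k hk => ?_⟩
  obtain ⟨c, hc, hp⟩ := hpar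
  have hp' : ∀ j i, (η₁.f j i).coeff (m j) = c j * (η₂.f j i).coeff 0 := fun j i => by
    rw [coeff_zero_eq_eval_zero]
    exact congrFun (congrFun hp j) i
  have h0' : ∀ j, (η₂.f j (i₀ j)).coeff 0 ≠ 0 := fun j h => h0 j (by rw [hp', h, mul_zero])
  have hE : Set.range (prm i₀ m n n₁ a b o n₂ e η₁.f η₂.f η₁.x η₂.x) ⊆ k :=
    hk ▸ IntermediateField.subset_adjoin _ _
  obtain ⟨ζ₁, f1, x1⟩ := desc η₁ k h0 (key₁ hE η₁.cp.1)
    (pt_mem (.inl h₁.1) (.inr (.inl h₁.2.1)) (.inr (.inr h₁.2.2))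
      fun s hs => hE ⟨.inr (.inr (.inr (.inl ⟨s, hs⟩))), rfl⟩)
  obtain ⟨ζ₂, f2, x2⟩ := desc η₂ k h0' (key₂ hE η₁.cp.1 η₂.cp.1 hc hp')
    (pt_mem (.inl h₂.1) (.inr (.inl h₂.2.1)) (.inr (.inr h₂.2.2))
      fun s hs => hE ⟨.inr (.inr (.inr (.inr ⟨s, hs⟩))), rfl⟩)
  have hpt : ζ₁.pt none = ζ₂.pt (some 0) := by
    funext j i
    refine (k.val : k →+* K).injective ?_
    have e1 := congrArg (fun p => coeff p (m j)) (f1 j i)
    have e2 := congrArg (fun p => coeff p 0) (f2 j i)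
    simp only [Dat.map, coeff_map, coeff_C_mul] at e1 e2
    change (k.val : k →+* K) ((ζ₁.f j i).coeff (m j)) = (k.val : k →+* K) ((ζ₂.f j i).eval 0)
    rw [← coeff_zero_eq_eval_zero, e1, e2, hp', hp']
    have := hc j
    have := h0' j
    field_simp
  refine ⟨ζ₁, ζ₂, f1, f2, x1, x2, hpt, fun hI => ⟨nml_of_map x1 h₁, nml_of_map x2 h₂,
    ⟨fun _ => 1, fun _ => one_ne_zero, by rw [hpt]; funext j i; simp [scl]⟩, ?_, ?_⟩⟩
  · have c1 : k.val '' ζ₁.crd = η₁.crd := by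
      rw [← Vb37.crd_map]
      exact Vb37.crd_eq x1 (fun j => inv_ne_zero (h0 j)) f1
    have c2 : k.val '' ζ₂.crd = η₂.crd := by
      rw [← Vb37.crd_map]
      exact Vb37.crd_eq x2 (fun j => inv_ne_zero (h0' j)) f2
    have hle : k ≤ (IntermediateField.adjoin ℂ (ζ₁.crd ∪ ζ₂.crd)).map k.val := by
      rw [IntermediateField.adjoin_map, Set.image_union, c1, c2]
      refine hk.le.trans (IntermediateField.adjoin_le_iff.2 (prm_sub ?_ ?_ ?_ ?_))
      · exact fun t ht => IntermediateField.subset_adjoin _ _ (Or.inl (Or.inl ht))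
      · exact fun t ht => IntermediateField.subset_adjoin _ _ (Or.inr (Or.inl ht))
      · exact fun q t ht => IntermediateField.subset_adjoin _ _ (Or.inl (Or.inr ⟨q, ht⟩))
      · exact fun q t ht => IntermediateField.subset_adjoin _ _ (Or.inr (Or.inr ⟨q, ht⟩))
    rw [eq_top_iff]
    intro t _
    obtain ⟨u, hu, e⟩ := hle t.2
    obtain rfl : u = t := Subtype.ext e
    exact hu
  · subst hk
    rw [← hcard, Nat.cast_add]
    congr 1
    let R := MvPolynomial (Px i₀ m n n₁ a b o n₂ e) ℂ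
    have h1 := trdeg_add_eq ℂ R (A := FractionRing R)
    have := IsLocalization.isAlgebraic (FractionRing R) (nonZeroDivisors R)
    rw [MvPolynomial.trdeg_of_isDomain, trdeg_eq_zero, add_zero] at h1
    rw [← hI.aevalEquivField.trdeg_eq, ← h1, Nat.card, Cardinal.cast_toNat_of_lt_aleph0
      (Cardinal.lt_aleph0_of_finite _), Cardinal.lift_id]

/-! ### the field of the chart -/

theorem coeff_divByMonic_X_pow (p : K[X]) (m l : ℕ) : (p /ₘ X ^ m).coeff l = p.coeff (l + m) := by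
  have hm : (X ^ m : K[X]).Monic := monic_X_pow m
  conv_rhs => rw [← modByMonic_add_div p (X ^ m)]
  rw [coeff_add, coeff_X_pow_mul, coeff_eq_zero_of_degree_lt (p := p %ₘ X ^ m), zero_add]
  refine (degree_modByMonic_lt p hm).trans_le ?_
  rw [degree_X_pow]
  exact_mod_cast Nat.le_add_left m l

theorem coeff_sc (A ρ : K) (f : K[X]) (l : ℕ) :
    (sc A ρ f).coeff l = (sc A 1 f).coeff l * ρ ^ l := by
  rw [← comp_C_mul_X_coeff, sc_apply, sc_apply, comp_assoc]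
  simp

theorem coeff_g1 (A ρ : K) (m : ℕ) (f : K[X]) (l : ℕ) :
    (g1 A ρ m f).coeff l = if l ≤ m then (sc A ρ f).coeff l / ρ ^ m else 0 := by
  simp [g1, coeff_monomial]

theorem natDegree_g1 (A ρ : K) (m : ℕ) (f : K[X]) : (g1 A ρ m f).natDegree ≤ m :=
  natDegree_le_iff_coeff_eq_zero.2 fun l hl => by rw [coeff_g1, if_neg (by omega)]

theorem coeff_g2 (A ρ : K) (m : ℕ) (f : K[X]) (l : ℕ) :
    (g2 A ρ m f).coeff l = (sc A ρ f).coeff (l + m) / ρ ^ m := by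
  rw [g2, coeff_C_mul, coeff_divByMonic_X_pow, div_eq_inv_mul]

theorem natDegree_g2 (A : K) {ρ : K} (hρ : ρ ≠ 0) {m n : ℕ} {f : K[X]} (h : f.natDegree ≤ m + n) :
    (g2 A ρ m f).natDegree ≤ n :=
  natDegree_le_iff_coeff_eq_zero.2 fun l hl => by
    rw [coeff_g2, coeff_eq_zero_of_natDegree_lt (by rw [natDegree_sc hρ]; omega), zero_div]

theorem g1_top (A : K) {ρ ρ' : K} (hρ : ρ ≠ 0) (hρ' : ρ' ≠ 0) (m : ℕ) (f : K[X]) :
    (g1 A ρ m f).coeff m = (g2 A ρ' m f).coeff 0 := by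
  rw [coeff_g1, if_pos le_rfl, coeff_g2, zero_add, coeff_sc A ρ, coeff_sc A ρ',
    mul_div_cancel_right₀ _ (pow_ne_zero _ hρ), mul_div_cancel_right₀ _ (pow_ne_zero _ hρ')]

theorem ktStmt : KtStmt io := by
  intro d m n M K _ _ ξ o a b e A R B S h i₀ hs h0
  have hρ : B - algebraMap ℂ K A ≠ 0 := sub_ne_zero.2 hs.ab
  have hρ' : algebraMap ℂ K (R - A) ≠ 0 := (_root_.map_ne_zero _).2 (sub_ne_zero.2 hs.ae)
  apply le_antisymm
  · set E := IntermediateField.adjoin ℂ (Set.range (cprm ξ o a b e A R B h i₀))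
    have hE : Set.range (cprm ξ o a b e A R B h i₀) ⊆ E := IntermediateField.subset_adjoin _ _
    have d1 := fun j i => natDegree_g1 (algebraMap ℂ K A) (B - algebraMap ℂ K A) (m j) (ξ.f j i)
    have d2 := fun j i => natDegree_g2 (algebraMap ℂ K A) hρ' (f := ξ.f j i) (m := m j) (n := n j)
      (by rw [h.add]; exact ξ.cp.1 j i)
    have hp := fun j i => (g1_top (algebraMap ℂ K A) hρ hρ' (m j) (ξ.f j i)).trans (one_mul _).symm
    refine IntermediateField.adjoin_le_iff.2 (Set.union_subset (Set.union_subset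
      (Set.union_subset (rat_sub h0 (key₁ hE d1)) (rat_sub (fun j => ?_)
        (key₂ hE d1 d2 (fun _ => one_ne_zero) hp))) ?_) ?_)
    · rw [← g1_top _ hρ hρ']
      exact h0 j
    · rintro t ⟨i, hi, ht⟩
      refine pt_mem (x := fun q : Mi S => q.elim none fun i =>
        nx (algebraMap ℂ K A) (B - algebraMap ℂ K A) (ξ.x i.1)) (p := none) (q := some ⟨a, h.a⟩)
        (r := some ⟨b, h.b⟩) (.inl rfl) (.inr (.inl ?_)) (.inr (.inr ?_))
        (fun s hs => hE ⟨.inr (.inr (.inr (.inl ⟨s, hs⟩))), rfl⟩) (some ⟨i, hi⟩) t ht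
      · simp [nx, hs.a]
      · simp [nx, hs.b, div_self hρ]
    · rintro t ⟨i, hi, ht⟩
      refine pt_mem (x := fun q : Mo S => q.elim (some 0) fun i =>
        nx (algebraMap ℂ K A) (algebraMap ℂ K (R - A)) (ξ.x i.1)) (p := some ⟨o, h.o⟩) (q := none)
        (r := some ⟨e, h.e⟩) (.inl ?_) (.inr (.inl rfl)) (.inr (.inr ?_))
        (fun s hs => hE ⟨.inr (.inr (.inr (.inr ⟨s, hs⟩))), rfl⟩) (some ⟨i, hi⟩) t ht
      · simp [nx, hs.o]
      · simp only [nx, Option.elim_some, hs.e, Option.map_some]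
        rw [← map_sub, div_self hρ']
  · refine IntermediateField.adjoin_le_iff.2 (prm_sub ?_ ?_ ?_ ?_)
    · exact fun t ht => IntermediateField.subset_adjoin _ _ (Or.inl (Or.inl (Or.inl ht)))
    · exact fun t ht => IntermediateField.subset_adjoin _ _ (Or.inl (Or.inl (Or.inr ht)))
    · rintro (_ | q) t ht
      · cases ht
      · exact IntermediateField.subset_adjoin _ _ (Or.inl (Or.inr ⟨q.1, q.2, ht⟩))
    · rintro (_ | q) t ht
      · cases ht
        exact zero_mem _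
      · exact IntermediateField.subset_adjoin _ _ (Or.inr ⟨q.1, q.2, ht⟩)

end Crest.Agent.X262.DropP
end
end

-- ▼ part X262/Ord23/Val
section

/-!
# Row 262, DROP-ORD (helper23), part 1: the valuation `ord_t` of `k(t)`

`exists_ord` : if `K = k(t)` with `t` transcendental over `k`, there is exactly one valuation ring
containing `k` with `|t| < 1`; it is divisorial, with uniformiser `t` and residue field `k`.
-/

set_option autoImplicit false
set_option linter.unusedSectionVars false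

noncomputable section

namespace Crest.Agent.X262.Ord23

open Crest.Agent.X277 Crest.Agent.X277.BD Crest.Agent.X277.Pst Crest.Agent.X277.BD.Cyc
open Crest.Agent.X277.Neg (nv)
open Crest.Agent.X262.Geo Crest.Agent.X262.Wd Polynomial WithZero

variable {K : Type} [Field K] [Algebra ℂ K] {k : IntermediateField ℂ K} {t : K} {V : RZ ℂ K}

theorem v_one (hV : ∀ x ∈ k, x ∈ V.1) {x : K} (hx : x ∈ k) (h0 : x ≠ 0) : V.v x = 1 :=
  v_of_mem (β := k.val) (fun b => hV b b.2) (b := ⟨x, hx⟩) fun h => h0 (congrArg Subtype.val h)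

theorem aeval_mem (hV : ∀ x ∈ k, x ∈ V.1) (ht : t ∈ V.1) (p : k[X]) : aeval t p ∈ V.1 := by
  rw [aeval_eq_sum_range]
  refine sum_mem fun i _ => ?_
  rw [Algebra.smul_def]
  exact mul_mem (hV _ (p.coeff i).2) (pow_mem ht i)

theorem v_sub_lt (hV : ∀ x ∈ k, x ∈ V.1) (ht : V.v t < 1) (p : k[X]) :
    V.v (aeval t p - (p.coeff 0 : k)) < 1 := by
  have h1 : aeval t p - (p.coeff 0 : k) = t * aeval t p.divX := by
    conv_lhs => rw [← X_mul_divX_add p]
    rw [map_add, map_mul, aeval_X, aeval_C, coeff_add, mul_coeff_zero, coeff_X_zero, zero_mul,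
      zero_add, coeff_C_zero]
    exact add_sub_cancel_right _ _
  rw [h1, map_mul]
  exact mul_lt_one_of_lt_of_le ht (RZ.le_one_iff.2 (aeval_mem hV (RZ.le_one_iff.1 ht.le) _))

theorem v_aeval (hV : ∀ x ∈ k, x ∈ V.1) (ht : V.v t < 1) {p : k[X]} (hp : p.coeff 0 ≠ 0) :
    V.v (aeval t p) = 1 := by
  have h1 : V.v ((p.coeff 0 : k) : K) = 1 := v_one hV (p.coeff 0).2 fun h => hp (Subtype.ext h)
  have h2 := V.v.map_add_eq_of_lt_left (x := ((p.coeff 0 : k) : K))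
    (y := aeval t p - (p.coeff 0 : k)) (by rw [h1]; exact v_sub_lt hV ht p)
  rwa [add_sub_cancel, h1] at h2

/-- the normal form `t ^ n p(t) / q(t)` -/
theorem exists_nf (ht : t ≠ 0) (hg : IntermediateField.adjoin k {t} = ⊤) {x : K} (h0 : x ≠ 0) :
    ∃ (n : ℤ) (p q : k[X]), p.coeff 0 ≠ 0 ∧ q.coeff 0 ≠ 0 ∧
      x = t ^ n * (aeval t p / aeval t q) := by
  have hx : x ∈ IntermediateField.adjoin k {t} := hg ▸ IntermediateField.mem_top
  obtain ⟨r, s, rfl⟩ := (IntermediateField.mem_adjoin_simple_iff _ _).1 hx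
  have hr : r ≠ 0 := fun h => h0 (by rw [h, map_zero, zero_div])
  have hs : s ≠ 0 := fun h => h0 (by rw [h, map_zero, div_zero])
  obtain ⟨p, hp, hp'⟩ := exists_eq_pow_rootMultiplicity_mul_and_not_dvd r hr 0
  obtain ⟨q, hq, hq'⟩ := exists_eq_pow_rootMultiplicity_mul_and_not_dvd s hs 0
  rw [map_zero, sub_zero] at hp hq hp' hq'
  refine ⟨(rootMultiplicity 0 r : ℤ) - rootMultiplicity 0 s, p, q, fun h => hp' (X_dvd_iff.2 h),
    fun h => hq' (X_dvd_iff.2 h), ?_⟩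
  conv_lhs => rw [hp, hq]
  rw [map_mul, map_mul, map_pow, map_pow, aeval_X, zpow_sub₀ ht, zpow_natCast, zpow_natCast,
    mul_div_mul_comm]

theorem v_nf (hV : ∀ x ∈ k, x ∈ V.1) (ht : V.v t < 1) (n : ℤ) {p q : k[X]} (hp : p.coeff 0 ≠ 0)
    (hq : q.coeff 0 ≠ 0) : V.v (aeval t p / aeval t q) = 1 ∧
      V.v (t ^ n * (aeval t p / aeval t q)) = V.v t ^ n := by
  have h1 : V.v (aeval t p / aeval t q) = 1 := by
    rw [map_div₀, v_aeval hV ht hp, v_aeval hV ht hq, div_one]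
  exact ⟨h1, by rw [map_mul, h1, mul_one, map_zpow₀]⟩

theorem dim_adj [Algebra.EssFiniteType ℂ K] (ht : Transcendental k t)
    (hg : IntermediateField.adjoin k {t} = ⊤) : dim ℂ K = dim ℂ k + 1 := by
  have := essFT_of_hom k.val
  have h1 := trdeg_add_eq ℂ k (A := K)
  have h2 : IsTranscendenceBasis k ![t] := by
    rw [AlgebraicIndependent.isTranscendenceBasis_iff_isAlgebraic
      (algebraicIndependent_iff_transcendental.2 ht), ← IntermediateField.isAlgebraic_adjoin_iff_top,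
      Matrix.range_cons_empty, hg, Algebra.isAlgebraic_iff_isIntegral]
    exact Algebra.isIntegral_of_surjective IntermediateField.topEquiv.surjective
  rw [← h2.cardinalMk_eq_trdeg, trdeg_eq_dim, trdeg_eq_dim, Cardinal.mk_fin] at h1
  exact_mod_cast h1.symm

/-- **the valuation `ord_t`** -/
theorem exists_ord [Algebra.EssFiniteType ℂ K] (ht : Transcendental k t)
    (hg : IntermediateField.adjoin k {t} = ⊤) :
    ∃ (V : RZ ℂ K) (hV : ∀ x, k.val x ∈ V.1), Dvs V ∧ od V (pr ℂ t) = -1 ∧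
      Function.Bijective (rt k.val V hV) ∧
      ∀ V' : RZ ℂ K, (∀ x ∈ k, x ∈ V'.1) → V'.v t < 1 → V' = V := by
  have h0 : t ≠ 0 := fun h => ht (h ▸ isAlgebraic_zero)
  have hP : (Ideal.span {(X : k[X])}).IsPrime := (Ideal.span_singleton_prime X_ne_zero).2 prime_X
  obtain ⟨W, h1, h2⟩ := Cns.exists_val ((aeval t : k[X] →ₐ[k] K) : k[X] →+* K) (Ideal.span {X})
    fun a ha => by
      rw [transcendental_iff.1 ht a ha]
      exact zero_mem _
  have hk : ∀ x ∈ k, x ∈ W := fun x hx => by simpa using h1 (C ⟨x, hx⟩)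
  let V : RZ ℂ K := ⟨W, fun c => hk _ (k.algebraMap_mem c)⟩
  have hkV : ∀ x ∈ k, x ∈ V.1 := hk
  have htV : V.v t < 1 := by
    have h3 := (h2 X).not.2 (not_not.2 (Ideal.mem_span_singleton_self _))
    rw [Cns.un_iff_val, RingHom.coe_coe, aeval_X] at h3
    have h4 : t ∈ W := by simpa using h1 X
    exact lt_of_le_of_ne (RZ.le_one_iff.2 h4) h3
  have key : ∀ V' : RZ ℂ K, V'.v t < 1 → ∀ n : ℤ, V'.v t ^ n ≤ 1 ↔ 0 ≤ n := fun V' h n =>
    zpow_le_one_iff_right_of_lt_one₀ (RZ.pos h0) h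
  have hb : Function.Bijective (rt k.val V fun x => hkV x x.2) := by
    refine ⟨(rt k.val V fun x => hkV x x.2).injective, fun y => ?_⟩
    by_cases hy : y = 0
    · exact ⟨0, by rw [hy, map_zero]⟩
    obtain ⟨x, hx, rfl⟩ := rr_surj V y
    have hx1 : V.v x = 1 := rr_ne_zero.1 hy
    obtain ⟨n, p, q, hp, hq, rfl⟩ := exists_nf h0 hg (RZ.ne_zero_iff.1 (hx1 ▸ one_ne_zero))
    have h3 := (v_nf hkV htV n hp hq).2
    rw [hx1, eq_comm, zpow_eq_one_iff_right₀ (RZ.pos h0).le htV.ne] at h3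
    subst h3
    have h4 : ∀ s : k[X], rr V (aeval t s) = rt k.val V (fun x => hkV x x.2) (s.coeff 0) :=
      fun s => by
      have h5 := aeval_mem hkV (RZ.le_one_iff.1 htV.le) s
      have h6 : ((s.coeff 0 : k) : K) ∈ V.1 := hkV _ (s.coeff 0).2
      have h7 := (rr_eq_zero (sub_mem h5 h6)).2 (v_sub_lt hkV htV s)
      rw [rr, Pl.r_sub h5 h6, sub_eq_zero] at h7
      exact h7
    refine ⟨p.coeff 0 / q.coeff 0, ?_⟩
    rw [zpow_zero, one_mul, map_div₀, ← h4, ← h4]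
    exact (Pl.r_div (p := plV V) (aeval_mem hkV (RZ.le_one_iff.1 htV.le) p)
      (v_aeval hkV htV hq)).symm
  have := essFT_of_hom k.val
  let e := AlgEquiv.ofBijective _ hb
  have : Algebra.EssFiniteType ℂ (Rf V) := Algebra.EssFiniteType.of_surjective e.toAlgHom hb.2
  have hD : Dvs V := by
    refine dvs_of_dim (fun h => ?_) ?_
    · have h3 : t⁻¹ ∈ V.1 := h ▸ ValuationSubring.mem_top _
      rw [← RZ.le_one_iff, map_inv₀, inv_le_one₀ (RZ.pos h0)] at h3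
      exact not_le.2 htV h3
    · have h3 := e.trdeg_eq (R := ℂ)
      rw [trdeg_eq_dim, trdeg_eq_dim] at h3
      rw [dim_adj ht hg, Nat.cast_injective h3]
  refine ⟨V, fun x => hkV x x.2, hD, ?_, hb, fun V' hV' ht' => ?_⟩
  · obtain ⟨s, hs⟩ := nv_unif hD
    have hs0 : s ≠ 0 := fun h => exp_ne_zero (by rw [← hs, h, map_zero])
    obtain ⟨n, p, q, hp, hq, rfl⟩ := exists_nf h0 hg hs0
    rw [map_mul, (nv_eq_one hD).2 (v_nf hkV htV n hp hq).1, mul_one, map_zpow₀] at hs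
    have h3 : nv V t ≠ 0 := (Valuation.ne_zero_iff _).2 h0
    have h4 : log (nv V t) < 0 := by
      rw [← exp_lt_exp, exp_log h3, exp_zero]
      exact (nv_lt_one hD).2 htV
    rw [od_pr h0]
    rw [← exp_log h3, ← exp_zsmul, exp_inj, smul_eq_mul] at hs
    rcases Int.eq_one_or_neg_one_of_mul_eq_neg_one' hs with h | h
    · exact h.2
    · omega
  · refine Subtype.ext (ValuationSubring.ext _ _ fun x => ?_)
    by_cases hx : x = 0
    · simp [hx]
    obtain ⟨n, p, q, hp, hq, rfl⟩ := exists_nf h0 hg hx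
    rw [← RZ.le_one_iff, ← RZ.le_one_iff, (v_nf hV' ht' n hp hq).2, (v_nf hkV htV n hp hq).2,
      key V' ht', key V htV]

end Crest.Agent.X262.Ord23
end
end

-- ▼ part X262/Ord23/Cop
section

/-!
# Row 262, DROP-ORD (helper23), part 2: the two sides of the chart of the universal datum

* `sh` : the datum in the coordinate `(z - A) / ρ`;
* `tc_ne` : all Taylor coefficients at `A` are nonzero;
* `cp_g1`, `cp_g2` : the two sides are coprime;
* `eq_top` : the field of the chart and `t` generate.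
-/

set_option autoImplicit false
set_option linter.unusedSectionVars false

noncomputable section

namespace Crest.Agent.X262.Ord23

open Crest.Agent.X277 Crest.Agent.X277.BD Crest.Agent.X262.Vb Crest.Agent.X262.Vb37
open Crest.Agent.X262.Drop30 Crest.Agent.X262.Gen42 Polynomial
open Crest.Agent.X262.Bub96 (hv)

variable {J : Type} [Fintype J] [DecidableEq J] {io : J → Type} [∀ j, Fintype (io j)]
  [∀ j, DecidableEq (io j)] {K : Type} [Field K] [Algebra ℂ K] {d m n : J → ℕ} {M : Type}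

theorem mob_sc {A ρ : K} {r : ℕ} {f : K[X]} (h : f.natDegree ≤ r) :
    C 1 * mob r !![ρ, A; 0, 1] f = sc A ρ f := by
  have := inf_of_alg K
  refine Polynomial.funext fun s => ?_
  have e : Matrix.mulVec !![ρ, A; 0, 1] (hx (some s)) = hx (some (A + ρ * s)) := by
    ext i
    fin_cases i <;> simp [hx, Matrix.mulVec, dotProduct, Fin.sum_univ_two, add_comm]
  rw [map_one, one_mul, eval_mob, e, hev_hx h, eval_sc]
  rfl

theorem det_ne {A ρ : K} (hρ : ρ ≠ 0) : (!![ρ, A; 0, 1] : Matrix (Fin 2) (Fin 2) K).det ≠ 0 := by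
  simpa using hρ

/-- the datum in the coordinate `(z - A) / ρ` -/
def sh (ξ : Dat io d M K) (A ρ : K) (hρ : ρ ≠ 0) : Dat io d M K where
  f j i := sc A ρ (ξ.f j i)
  x q := nx A ρ (ξ.x q)
  cp := by
    have h := cp_mob ξ.cp (det_ne (A := A) hρ) (c := fun _ => 1) fun _ => one_ne_zero
    simp only [mob_sc (ξ.cp.1 _ _)] at h
    exact h

theorem eqv_sh (ξ : Dat io d M K) (A ρ : K) (hρ : ρ ≠ 0) : ξ.Eqv (sh ξ A ρ hρ) := by
  refine ⟨_, fun _ => 1, det_ne (A := A) hρ, fun _ => one_ne_zero,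
    fun j i => (mob_sc (ξ.cp.1 j i)).symm, fun q => ?_⟩
  change ∃ u : K, Matrix.mulVec _ (hx (nx A ρ (ξ.x q))) = _
  rcases ξ.x q with _ | y
  · refine ⟨ρ, ?_⟩
    ext i
    fin_cases i <;> simp [hx, nx, Matrix.mulVec, dotProduct, Fin.sum_univ_two]
  · refine ⟨1, ?_⟩
    ext i
    fin_cases i <;> simp [hx, nx, Matrix.mulVec, dotProduct, Fin.sum_univ_two, mul_div_cancel₀, hρ]

theorem trans_mul {E : IntermediateField ℂ K} {x e : K} (h : Transcendental E x) (he : e ∈ E)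
    (h0 : e ≠ 0) : Transcendental E (x * e) := fun h1 => h (by
  have h2 := h1.mul (isAlgebraic_algebraMap (⟨e⁻¹, E.inv_mem he⟩ : E))
  rwa [show x * e * algebraMap E K ⟨e⁻¹, E.inv_mem he⟩ = x from mul_inv_cancel_right₀ h0 x] at h2)

theorem exists_lift {E : IntermediateField ℂ K} {p : K[X]} (hp : ∀ l, p.coeff l ∈ E) :
    ∃ p' : E[X], p'.map (algebraMap E K) = p :=
  (lifts_iff_coeff_lifts p).2 fun l => ⟨⟨_, hp l⟩, rfl⟩

/-- a free constant term prevents common roots -/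
theorem cop {E : IntermediateField ℂ K} {p q : K[X]} (h0 : p ≠ 0) (hp : ∀ l, p.coeff l ∈ E)
    (hq : ∀ l, l ≠ 0 → q.coeff l ∈ E) (ht : Transcendental E (q.coeff 0))
    (r : AlgebraicClosure K) (h1 : aeval r p = 0) : aeval r q ≠ 0 := fun h2 => by
  obtain ⟨p', rfl⟩ := exists_lift hp
  obtain ⟨q', hq'⟩ := exists_lift (E := E) (p := q - C (q.coeff 0)) fun l => by
    rw [coeff_sub, coeff_C]
    split_ifs with h
    · rw [h, sub_self]; exact E.zero_mem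
    · rw [sub_zero]; exact hq l h
  rw [aeval_map_algebraMap] at h1
  have hr : IsAlgebraic E r := ⟨p', fun h => h0 (by rw [h, Polynomial.map_zero]), h1⟩
  have h3 : IsIntegral E (aeval r q') :=
    adjoin_le_integralClosure hr.isIntegral (aeval_mem_adjoin_singleton _ _)
  rw [← aeval_map_algebraMap K, hq', map_sub, h2, aeval_C, zero_sub] at h3
  have h4 := h3.neg.isAlgebraic
  rw [neg_neg, isAlgebraic_algebraMap_iff (algebraMap K (AlgebraicClosure K)).injective] at h4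
  exact ht h4

theorem cp_of {r : J → ℕ} {G : (j : J) → io j → K[X]} (i₀ : (j : J) → io j)
    (h1 : ∀ j i, (G j i).natDegree ≤ r j) (h2 : ∀ j, (G j (i₀ j)).coeff (r j) ≠ 0)
    (h3 : ∀ j, r j ≠ 0 → ∃ (i : io j) (c : K) (E : IntermediateField ℂ K), c ≠ 0 ∧
      (∀ l, c * (G j (i₀ j)).coeff l ∈ E) ∧ (∀ l, l ≠ 0 → c * (G j i).coeff l ∈ E) ∧
      Transcendental E (c * (G j i).coeff 0)) : Cp r G := by
  refine cp_of_closed (algebraMap K (AlgebraicClosure K)) h1 fun j s => ?_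
  have h4 : ((G j (i₀ j)).map (algebraMap K (AlgebraicClosure K))).coeff (r j) ≠ 0 := by
    rw [coeff_map]
    exact (_root_.map_ne_zero _).2 (h2 j)
  rcases s with _ | s
  · exact ⟨i₀ j, h4⟩
  by_cases h0 : r j = 0
  · refine ⟨i₀ j, ?_⟩
    have h5 := h1 j (i₀ j)
    rw [h0] at h4 h5
    change eval s _ ≠ 0
    rw [eq_C_of_natDegree_le_zero (natDegree_map_le.trans h5), eval_C]
    exact h4
  obtain ⟨i, c, E, hc, e1, e2, e3⟩ := h3 j h0
  by_contra hn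
  push Not at hn
  have h5 : ∀ i, aeval s (C c * G j i) = 0 := fun i => by
    have h6 : aeval s (G j i) = 0 := by
      rw [← eval_map_algebraMap]
      exact hn i
    rw [map_mul, h6, mul_zero]
  refine cop (E := E) (p := C c * G j (i₀ j)) (q := C c * G j i) ?_ ?_ ?_ ?_ s (h5 _) (h5 _)
  · exact mul_ne_zero (C_ne_zero.2 hc) fun h => h2 j (by rw [h, coeff_zero])
  · simpa only [coeff_C_mul] using e1
  · simpa only [coeff_C_mul] using e2
  · simpa only [coeff_C_mul] using e3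

variable [Fintype M] {ξ : Dat io d M K} {o a b e : M} {A R : ℂ} {B : K} {S : Set M}

theorem rho_ne (h : Shp ξ o a b e A R B) : algebraMap ℂ K (R - A) ≠ 0 :=
  (_root_.map_ne_zero _).2 (sub_ne_zero.2 h.ae)

theorem t_ne (h : Shp ξ o a b e A R B) : B - algebraMap ℂ K A ≠ 0 := sub_ne_zero.2 h.ab

theorem nm3_sh (h : Shp ξ o a b e A R B) :
    Nm3 (sh ξ (algebraMap ℂ K A) _ (rho_ne h)) o a e := by
  refine ⟨?_, ?_, ?_⟩
  · change nx _ _ (ξ.x o) = _
    rw [h.o]; rfl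
  · change nx _ _ (ξ.x a) = _
    rw [h.a, nx, Option.map_some, sub_self, zero_div]
  · change nx _ _ (ξ.x e) = _
    rw [h.e, nx, Option.map_some, ← map_sub, div_self (rho_ne h)]

theorem univ_sh (h : Shp ξ o a b e A R B) (hu : ξ.Univ) :
    (sh ξ (algebraMap ℂ K A) _ (rho_ne h)).Univ :=
  univ_of_eqv hu (eqv_sh _ _ _ _) (nm3_sh h)

/-- Taylor coefficients at `A` -/
abbrev tc (ξ : Dat io d M K) (A : ℂ) (j : J) (i : io j) (l : ℕ) : K :=
  (taylor (algebraMap ℂ K A) (ξ.f j i)).coeff l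

theorem tc_ne (h : Shp ξ o a b e A R B) (hu : ξ.Univ) (j : J) (i : io j) {l : ℕ} (hl : l ≤ d j) :
    tc ξ A j i l ≠ 0 := by
  have h1 := univ_coeff_ne (univ_sh h hu) j i hl
  change (sc _ _ _).coeff l ≠ 0 at h1
  rw [coeff_sc] at h1
  exact left_ne_zero_of_mul h1

theorem tc_eq {j : J} {i : io j} {l : ℕ} (hl : d j < l) : tc ξ A j i l = 0 :=
  coeff_eq_zero_of_natDegree_lt (by rw [natDegree_taylor]; exact (ξ.cp.1 j i).trans_lt hl)

theorem exists_E (h : Shp ξ o a b e A R B) (hu : ξ.Univ) (hy : IsTy d m n S o a b e)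
    (i₀ : (j : J) → io j) {j : J} {i₁ : io j} (hi : i₁ ≠ i₀ j) {l₁ : ℕ} (hl : l₁ ≤ d j) :
    ∃ E : IntermediateField ℂ K, B - algebraMap ℂ K A ∈ E ∧
      (∀ i l, i ≠ i₁ ∨ l ≠ l₁ → tc ξ A j i l / tc ξ A j (i₀ j) (m j) ∈ E) ∧
      Transcendental E (tc ξ A j i₁ l₁ / tc ξ A j (i₀ j) (m j)) := by
  have hρ := rho_ne h
  have hm : ∀ j, m j ≤ d j := fun j => hy.add j ▸ Nat.le_add_right _ _
  let p0 : (j : J) → io j × Fin (d j + 1) := fun j => (i₀ j, ⟨m j, Nat.lt_succ_of_le (hm j)⟩)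
  have hI := (indep_gen (univ_sh h hu) (p0 := p0) (nm3_sh h)
    fun j => univ_coeff_ne (univ_sh h hu) j _ (hm j)).2
  set u := gen (sh ξ (algebraMap ℂ K A) _ (rho_ne h)) p0 o a e with hu'
  let x₁ : Ix p0 o a e := .inl ⟨j, ⟨(i₁, ⟨l₁, Nat.lt_succ_of_le hl⟩), fun h => hi (Prod.mk.inj h).1⟩⟩
  let E := IntermediateField.adjoin ℂ (u '' {x₁}ᶜ)
  have hρE : algebraMap ℂ K (R - A) ∈ E := E.algebraMap_mem _
  have hv : ∀ (p : io j × Fin (d j + 1)) (hp : p ≠ p0 j),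
      tc ξ A j p.1 p.2 / tc ξ A j (i₀ j) (m j) = u (.inl ⟨j, ⟨p, hp⟩⟩) *
        (algebraMap ℂ K (R - A) ^ m j / algebraMap ℂ K (R - A) ^ (p.2 : ℕ)) := fun p hp => by
    have h0 := tc_ne h hu j (i₀ j) (hm j)
    change _ = (sc _ _ _).coeff _ / (sc _ _ (ξ.f j (i₀ j))).coeff (m j) * _
    rw [coeff_sc, coeff_sc]
    field_simp
  refine ⟨E, ?_, fun i l hil => ?_, ?_⟩
  · have hb : b ≠ o ∧ b ≠ a ∧ b ≠ e := by
      refine ⟨fun h1 => hy.o (h1 ▸ hy.b), fun h1 => h.ab ?_, fun h1 => hy.e (h1 ▸ hy.b)⟩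
      have h2 := h.b
      rw [h1, h.a] at h2
      exact (Option.some.inj h2).symm
    have h1 : u (.inr ⟨b, hb⟩) ∈ E :=
      IntermediateField.subset_adjoin _ _ ⟨_, fun h => Sum.inr_ne_inl h, rfl⟩
    have h2 : u (.inr ⟨b, hb⟩) = (B - algebraMap ℂ K A) / algebraMap ℂ K (R - A) := by
      change (nx _ _ (ξ.x b)).getD 0 = _
      rw [h.b]; rfl
    have h3 := E.mul_mem h1 hρE
    rwa [h2, div_mul_cancel₀ _ hρ] at h3
  · by_cases h1 : d j < l
    · rw [tc_eq h1, zero_div]; exact E.zero_mem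
    let p : io j × Fin (d j + 1) := (i, ⟨l, Nat.lt_succ_of_le (not_lt.1 h1)⟩)
    by_cases hp : p = p0 j
    · obtain ⟨rfl, h2⟩ := Prod.mk.inj hp
      obtain rfl : l = m j := congrArg Fin.val h2
      rw [div_self (tc_ne h hu j _ (hm j))]
      exact E.one_mem
    · rw [hv p hp]
      refine E.mul_mem (IntermediateField.subset_adjoin _ _ ⟨_, fun h2 => ?_, rfl⟩)
        (E.div_mem (pow_mem hρE _) (pow_mem hρE _))
      have h3 := Prod.mk.inj (congrArg Subtype.val (eq_of_heq (Sigma.mk.inj (Sum.inl.inj h2)).2))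
      exact hil.elim (fun h4 => h4 h3.1) fun h4 => h4 (congrArg Fin.val h3.2)
  · rw [hv (i₁, ⟨l₁, Nat.lt_succ_of_le hl⟩) fun h => hi (Prod.mk.inj h).1]
    refine trans_mul ?_ (E.div_mem (pow_mem hρE _) (pow_mem hρE _))
      (div_ne_zero (pow_ne_zero _ hρ) (pow_ne_zero _ hρ))
    exact IntermediateField.transcendental_adjoin_iff.2
      (hI.transcendental_adjoin (i := x₁) (by simp))

theorem exists_ne' (ξ : Dat io d M K) {j : J} (h : d j ≠ 0) (i : io j) : ∃ i', i' ≠ i :=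
  have := (cp_cond ξ.cp j).2.resolve_left h
  exists_ne i

theorem cp_g1 (h : Shp ξ o a b e A R B) (hu : ξ.Univ) (hy : IsTy d m n S o a b e) :
    Cp m fun j i => g1 (algebraMap ℂ K A) (B - algebraMap ℂ K A) (m j) (ξ.f j i) := by
  have hm : ∀ j, m j ≤ d j := fun j => hy.add j ▸ Nat.le_add_right _ _
  have ht := t_ne h
  choose i₀ _ using ξ.cp.2.1
  refine cp_of i₀ (fun j i => natDegree_g1 _ _ _ _) (fun j => ?_) fun j hj => ?_
  · rw [coeff_g1, if_pos le_rfl]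
    exact div_ne_zero (mul_ne_zero (tc_ne h hu j _ (hm j)) (pow_ne_zero _ ht)) (pow_ne_zero _ ht)
  obtain ⟨i₁, hi⟩ := exists_ne' ξ (j := j) (fun h0 => hj (by have := hm j; omega)) (i₀ j)
  obtain ⟨E, e1, e2, e3⟩ := exists_E h hu hy i₀ hi (Nat.zero_le _)
  have key : ∀ i l, l ≤ m j → (tc ξ A j (i₀ j) (m j))⁻¹ * (g1 (algebraMap ℂ K A)
      (B - algebraMap ℂ K A) (m j) (ξ.f j i)).coeff l = tc ξ A j i l / tc ξ A j (i₀ j) (m j) *
        ((B - algebraMap ℂ K A) ^ l / (B - algebraMap ℂ K A) ^ m j) := fun i l hl => by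
    rw [coeff_g1, if_pos hl]
    ring
  have key2 : ∀ i l, i ≠ i₁ ∨ l ≠ 0 → (tc ξ A j (i₀ j) (m j))⁻¹ * (g1 (algebraMap ℂ K A)
      (B - algebraMap ℂ K A) (m j) (ξ.f j i)).coeff l ∈ E := fun i l hl => by
    by_cases h1 : l ≤ m j
    · rw [key i l h1]
      exact E.mul_mem (e2 i l hl) (E.div_mem (pow_mem e1 _) (pow_mem e1 _))
    · rw [coeff_g1, if_neg h1, mul_zero]; exact E.zero_mem
  refine ⟨i₁, _, E, inv_ne_zero (tc_ne h hu j (i₀ j) (hm j)), fun l => key2 _ l (Or.inl hi.symm),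
    fun l hl => key2 _ l (Or.inr hl), ?_⟩
  rw [key _ _ (Nat.zero_le _)]
  exact trans_mul e3 (E.div_mem (pow_mem e1 _) (pow_mem e1 _))
    (div_ne_zero (pow_ne_zero _ ht) (pow_ne_zero _ ht))

theorem cp_g2 (h : Shp ξ o a b e A R B) (hu : ξ.Univ) (hy : IsTy d m n S o a b e) :
    Cp n fun j i => g2 (algebraMap ℂ K A) (algebraMap ℂ K (R - A)) (m j) (ξ.f j i) := by
  have hm : ∀ j, m j ≤ d j := fun j => hy.add j ▸ Nat.le_add_right _ _
  have hρ := rho_ne h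
  choose i₀ _ using ξ.cp.2.1
  refine cp_of i₀ (fun j i => natDegree_g2 hρ _ (hy.add j ▸ ξ.cp.1 j i)) (fun j => ?_)
    fun j hj => ?_
  · rw [coeff_g2 hρ]
    exact mul_ne_zero (tc_ne h hu j _ (by have := hy.add j; omega)) (pow_ne_zero _ hρ)
  obtain ⟨i₁, hi⟩ := exists_ne' ξ (j := j) (fun h0 => hj (by have := hy.add j; omega)) (i₀ j)
  obtain ⟨E, -, e2, e3⟩ := exists_E h hu hy i₀ hi (hm j)
  have hρE : algebraMap ℂ K (R - A) ∈ E := E.algebraMap_mem _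
  have key : ∀ i l, (tc ξ A j (i₀ j) (m j))⁻¹ * (g2 (algebraMap ℂ K A)
      (algebraMap ℂ K (R - A)) (m j) (ξ.f j i)).coeff l =
        tc ξ A j i (l + m j) / tc ξ A j (i₀ j) (m j) * algebraMap ℂ K (R - A) ^ l := fun i l => by
    rw [coeff_g2 hρ]
    ring
  refine ⟨i₁, _, E, inv_ne_zero (tc_ne h hu j (i₀ j) (hm j)), fun l => ?_, fun l hl => ?_, ?_⟩
  · rw [key]
    exact E.mul_mem (e2 _ _ (Or.inl hi.symm)) (pow_mem hρE _)
  · rw [key]
    exact E.mul_mem (e2 _ _ (Or.inr (by omega))) (pow_mem hρE _)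
  · rw [key, zero_add, pow_zero, mul_one]
    exact e3

theorem r1_mem (m : J → ℕ) (S : Set M) (j : J) (i i' : io j) (l l' : ℕ) :
    (g1 (algebraMap ℂ K A) (B - algebraMap ℂ K A) (m j) (ξ.f j i)).coeff l /
      (g1 (algebraMap ℂ K A) (B - algebraMap ℂ K A) (m j) (ξ.f j i')).coeff l' ∈
        kT ξ A R B m S :=
  IntermediateField.subset_adjoin _ _ (Or.inl (Or.inl (Or.inl ⟨j, i, i', l, l', rfl⟩)))

theorem r2_mem (m : J → ℕ) (S : Set M) (j : J) (i i' : io j) (l l' : ℕ) :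
    (g2 (algebraMap ℂ K A) (algebraMap ℂ K (R - A)) (m j) (ξ.f j i)).coeff l /
      (g2 (algebraMap ℂ K A) (algebraMap ℂ K (R - A)) (m j) (ξ.f j i')).coeff l' ∈
        kT ξ A R B m S :=
  IntermediateField.subset_adjoin _ _ (Or.inl (Or.inl (Or.inr ⟨j, i, i', l, l', rfl⟩)))

theorem x1_mem (m : J → ℕ) {i : M} (hi : i ∈ S) {y : K} (hy : ξ.x i = some y) :
    (y - algebraMap ℂ K A) / (B - algebraMap ℂ K A) ∈ kT ξ A R B m S :=
  IntermediateField.subset_adjoin _ _ (Or.inl (Or.inr ⟨i, hi, by rw [hy]; rfl⟩))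

theorem x2_mem (m : J → ℕ) {i : M} (hi : i ∉ S) {y : K} (hy : ξ.x i = some y) :
    (y - algebraMap ℂ K A) / algebraMap ℂ K (R - A) ∈ kT ξ A R B m S :=
  IntermediateField.subset_adjoin _ _ (Or.inr ⟨i, hi, by rw [hy]; rfl⟩)

/-- the field of the chart and `t` generate -/
theorem eq_top (h : Shp ξ o a b e A R B) (hu : ξ.Univ) (hy : IsTy d m n S o a b e)
    {F : IntermediateField ℂ K} (h1 : kT ξ A R B m S ≤ F) (h2 : B - algebraMap ℂ K A ∈ F) :
    F = ⊤ := by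
  have hm : ∀ j, m j ≤ d j := fun j => hy.add j ▸ Nat.le_add_right _ _
  have hρ := rho_ne h
  have ht := t_ne h
  have hρF : algebraMap ℂ K (R - A) ∈ F := F.algebraMap_mem _
  have key : ∀ j i i' l, tc ξ A j i l / tc ξ A j i' (m j) ∈ F := fun j i i' l => by
    have h0 := tc_ne h hu j i' (hm j)
    by_cases hl : l ≤ m j
    · have h3 := F.mul_mem (h1 (r1_mem m S j i i' l (m j)))
        (F.div_mem (pow_mem h2 (m j)) (pow_mem h2 l))
      rw [coeff_g1, coeff_g1, if_pos hl, if_pos le_rfl] at h3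
      convert h3 using 1
      field_simp
    · have h3 := F.div_mem (h1 (r2_mem m S j i i' (l - m j) 0)) (pow_mem hρF (l - m j))
      rw [coeff_g2 hρ, coeff_g2 hρ, Nat.sub_add_cancel (by omega), zero_add] at h3
      convert h3 using 1
      field_simp
  rw [eq_top_iff, ← (univ_sh h hu).2.1, IntermediateField.adjoin_le_iff]
  rintro y (⟨j, i, i', l, l', rfl⟩ | ⟨q, hq⟩)
  · change (sc _ _ _).coeff l / (sc _ _ _).coeff l' ∈ F
    rw [coeff_sc, coeff_sc, mul_div_mul_comm, ← div_div_div_cancel_right₀ (tc_ne h hu j i (hm j))]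
    exact F.mul_mem (F.div_mem (key j i i l) (key j i' i l'))
      (F.div_mem (pow_mem hρF _) (pow_mem hρF _))
  · obtain ⟨z, hz, rfl⟩ := Option.map_eq_some_iff.1 hq
    by_cases hS : q ∈ S
    · have h3 := F.div_mem (F.mul_mem (h1 (x1_mem m hS hz)) h2) hρF
      rwa [div_mul_cancel₀ _ ht] at h3
    · exact h1 (x2_mem m hS hz)

end Crest.Agent.X262.Ord23
end
end

-- ▼ part X262/Ord23/Main
section

/-!
# Row 262, DROP-ORD (helper23), part 3: `ordStmt_of : PrmStmt → KtStmt → OrdStmt`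
-/

set_option autoImplicit false
set_option linter.unusedSectionVars false

noncomputable section

namespace Crest.Agent.X262.Ord23

open Crest.Agent.X277 Crest.Agent.X277.BD Crest.Agent.X262.Vb Crest.Agent.X262.Vb37
open Crest.Agent.X262.Drop30 Crest.Agent.X262.Gen42 Crest.Agent.X262.Node22 Polynomial

variable {J : Type} [Fintype J] [DecidableEq J] {io : J → Type} [∀ j, Fintype (io j)]
  [∀ j, DecidableEq (io j)] {K : Type} [Field K] [Algebra ℂ K] {d m n : J → ℕ} {M : Type}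
  [Fintype M] {ξ : Dat io d M K} {o a b e : M} {A R : ℂ} {B : K} {S : Set M}

theorem count [Fintype (Mi S)] [Fintype (Mo S)] (hio : ∀ j, Nonempty (io j))
    (hy : IsTy d m n S o a b e) (hab : a ≠ b) (hoe : o ≠ e) :
    mdim io m (Fintype.card (Mi S)) + mdim io n (Fintype.card (Mo S)) + 1 =
      mdim io d (Fintype.card M) + dimP io := by
  have h1 : Fintype.card (Mi S) = Nat.card {i // i ∈ S} + 1 := by
    rw [← Nat.card_eq_fintype_card, Finite.card_option]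
  have h2 : Fintype.card (Mo S) = Nat.card {i // i ∉ S} + 1 := by
    rw [← Nat.card_eq_fintype_card, Finite.card_option]
  have h3 : Nat.card {i // i ∈ S} + Nat.card {i // i ∉ S} = Fintype.card M := by
    classical
    rw [← Nat.card_sum, ← Nat.card_eq_fintype_card]
    exact Nat.card_congr (Equiv.sumCompl _)
  have h4 : 1 < Nat.card {i // i ∈ S} := Finite.one_lt_card_iff_nontrivial.2
    ⟨⟨a, hy.a⟩, ⟨b, hy.b⟩, fun h => hab (congrArg Subtype.val h)⟩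
  have h5 : 1 < Nat.card {i // i ∉ S} := Finite.one_lt_card_iff_nontrivial.2
    ⟨⟨o, hy.o⟩, ⟨e, hy.e⟩, fun h => hoe (congrArg Subtype.val h)⟩
  have h6 : ∑ j, (Fintype.card (io j) * (m j + 1) - 1) + ∑ j, (Fintype.card (io j) * (n j + 1) - 1)
      = ∑ j, (Fintype.card (io j) * (d j + 1) - 1) + ∑ j, (Fintype.card (io j) - 1) := by
    rw [← Finset.sum_add_distrib, ← Finset.sum_add_distrib]
    refine Finset.sum_congr rfl fun j _ => ?_
    have := hio j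
    have h7 : 0 < Fintype.card (io j) := Fintype.card_pos
    rw [← hy.add j]
    simp only [mul_add, mul_one]
    omega
  rw [mdim, mdim, mdim, dimP, h1, h2]
  omega

theorem indep_of {ι : Type} [Finite ι] {w : ι → K} {r : ℕ} (h : Algebra.trdeg ℂ K = r)
    (hc : Nat.card ι = r) (h1 : IntermediateField.adjoin ℂ (Set.range w) = ⊤) :
    AlgebraicIndependent ℂ w := by
  have : Algebra.IsAlgebraic (Algebra.adjoin ℂ (Set.range w)) K := by
    rw [← IntermediateField.isAlgebraic_adjoin_iff_top, h1, Algebra.isAlgebraic_iff_isIntegral]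
    exact Algebra.isIntegral_of_surjective IntermediateField.topEquiv.surjective
  refine (Algebra.IsAlgebraic.isTranscendenceBasis_of_le_trdeg_of_finite ℂ _ ?_).1
  rw [h, ← hc, Nat.card, Cardinal.cast_toNat_of_lt_aleph0 (Cardinal.lt_aleph0_of_finite _)]

theorem chart (hP : PrmStmt io) (hK : KtStmt io) (h : Shp ξ o a b e A R B) (hu : ξ.Univ)
    [Fintype (Mi S)] [Fintype (Mo S)] (hy : IsTy d m n S o a b e) :
    (∃ (η₁ : Dat io m (Mi S) (kT ξ A R B m S)) (η₂ : Dat io n (Mo S) (kT ξ A R B m S)),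
      Chart ξ A R B S (kT ξ A R B m S).val η₁ η₂ ∧
      Univ2 η₁ none (some ⟨a, hy.a⟩) (some ⟨b, hy.b⟩) η₂ (some ⟨o, hy.o⟩) none (some ⟨e, hy.e⟩)) ∧
    Transcendental (kT ξ A R B m S) (B - algebraMap ℂ K A) := by
  have hm : ∀ j, m j ≤ d j := fun j => hy.add j ▸ Nat.le_add_right _ _
  have ht := t_ne h
  have hρ := rho_ne h
  choose i₀ _ using ξ.cp.2.1
  let η₁ : Dat io m (Mi S) K := ⟨_, fun q => q.elim none fun i =>
    nx (algebraMap ℂ K A) (B - algebraMap ℂ K A) (ξ.x i.1), cp_g1 h hu hy⟩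
  let η₂ : Dat io n (Mo S) K := ⟨_, fun q => q.elim (some 0) fun i =>
    nx (algebraMap ℂ K A) (algebraMap ℂ K (R - A)) (ξ.x i.1), cp_g2 h hu hy⟩
  have h0 : ∀ j, (η₁.f j (i₀ j)).coeff (m j) ≠ 0 := fun j => by
    change (g1 _ _ _ _).coeff _ ≠ 0
    rw [coeff_g1, if_pos le_rfl]
    exact div_ne_zero (mul_ne_zero (tc_ne h hu j _ (hm j)) (pow_ne_zero _ ht)) (pow_ne_zero _ ht)
  have n1 : Nml η₁ none (some ⟨a, hy.a⟩) (some ⟨b, hy.b⟩) := by
    refine ⟨rfl, ?_, ?_⟩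
    · change nx _ _ (ξ.x a) = _
      rw [h.a, nx, Option.map_some, sub_self, zero_div]
    · change nx _ _ (ξ.x b) = _
      rw [h.b, nx, Option.map_some, div_self ht]
  have n2 : Nml η₂ (some ⟨o, hy.o⟩) none (some ⟨e, hy.e⟩) :=
    ⟨(nm3_sh h).1, rfl, (nm3_sh h).2.2⟩
  have hnode : ∀ j i, (η₁.f j i).coeff (m j) = (η₂.f j i).coeff 0 := fun j i =>
    node_eq ht hρ _ _ _
  have hpar : Par (η₁.pt none) (η₂.pt (some 0)) := by
    refine ⟨fun _ => 1, fun _ => one_ne_zero, ?_⟩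
    ext j i
    change (η₁.f j i).coeff (m j) = 1 * eval 0 (η₂.f j i)
    rw [one_mul, ← coeff_zero_eq_eval_zero, hnode]
  obtain ⟨hc, hd⟩ := hP m n _ _ K η₁ η₂ _ _ _ _ _ _ i₀ n1 n2 hpar h0
  have hk := hK d m n M K ξ o a b e A R B S hy i₀ h h0
  obtain ⟨ζ₁, ζ₂, f1, f2, x1, x2, -, hU⟩ := hd _ hk
  have hab : a ≠ b := fun h1 => h.ab (by
    have h2 := h.b
    rw [← h1, h.a] at h2
    exact (Option.some.inj h2).symm)
  have hcount := count (io := io) (fun j => ⟨i₀ j⟩) hy hab (nm3_sh h).ne.2.1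
  have hI : AlgebraicIndependent ℂ fun q : Option _ =>
      q.elim (B - algebraMap ℂ K A) (cprm ξ o a b e A R B hy i₀) := by
    refine indep_of hu.2.2 ?_ (eq_top h hu hy ?_ ?_)
    · rw [Finite.card_option]
      omega
    · rw [hk]
      refine IntermediateField.adjoin.mono _ _ _ ?_
      rintro _ ⟨q, rfl⟩
      exact ⟨some q, rfl⟩
    · exact IntermediateField.subset_adjoin _ _ ⟨none, rfl⟩
  obtain ⟨hI1, hI2⟩ := AlgebraicIndependent.option_iff.1 hI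
  have hU' := hU hI1
  refine ⟨⟨ζ₁, ζ₂, ⟨⟨fun j => ((η₁.f j (i₀ j)).coeff (m j))⁻¹, fun j => inv_ne_zero (h0 j), f1,
    fun j i => ?_⟩, hU'.nml₁.1, hU'.nml₂.2.1, fun i => congrFun x1 (some i),
    fun i => congrFun x2 (some i)⟩, hU'⟩, ?_⟩
  · rw [f2, ← hnode]
  · rw [hk]
    exact IntermediateField.transcendental_adjoin_iff.2 hI2

theorem sub_ty (h : Shp ξ o a b e A R B) (hu : ξ.Univ) {m' n' : J → ℕ} {S' : Set M}
    (hy : IsTy d m n S o a b e) (hy' : IsTy d m' n' S' o a b e) {V : RZ ℂ K}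
    (ht : V.v (B - algebraMap ℂ K A) < 1) (h1 : ∀ x ∈ kT ξ A R B m S, x ∈ V.1)
    (h2 : ∀ x ∈ kT ξ A R B m' S', x ∈ V.1) : (∀ j, m' j ≤ m j) ∧ S ⊆ S' := by
  have ht0 := t_ne h
  have hρ := rho_ne h
  have hρ1 : V.v (algebraMap ℂ K (R - A)) = 1 :=
    v_one h1 ((kT ξ A R B m S).algebraMap_mem _) hρ
  refine ⟨fun j => not_lt.1 fun hj => ?_, fun i hi => by_contra fun hi' => ?_⟩
  · obtain ⟨i, -⟩ := ξ.cp.2.1 j
    have hd : m j + 1 ≤ d j := by have := hy'.add j; omega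
    have e0 := tc_ne h hu j i (Nat.le_of_succ_le hd)
    have e1 := tc_ne h hu j i hd
    have h3 := r2_mem (ξ := ξ) (A := A) (R := R) (B := B) m S j i i 1 0
    have h4 := r1_mem (ξ := ξ) (A := A) (R := R) (B := B) m' S' j i i (m j + 1) (m j)
    rw [coeff_g2 hρ, coeff_g2 hρ, zero_add, add_comm 1] at h3
    rw [coeff_g1, coeff_g1, if_pos (show m j + 1 ≤ m' j from hj), if_pos hj.le] at h4
    have h5 := v_one h1 h3 (div_ne_zero (mul_ne_zero e1 (pow_ne_zero _ hρ))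
      (mul_ne_zero e0 (pow_ne_zero _ hρ)))
    have h6 := v_one h2 h4 (div_ne_zero
      (div_ne_zero (mul_ne_zero e1 (pow_ne_zero _ ht0)) (pow_ne_zero _ ht0))
      (div_ne_zero (mul_ne_zero e0 (pow_ne_zero _ ht0)) (pow_ne_zero _ ht0)))
    have h7 : tc ξ A j i (m j + 1) * (B - algebraMap ℂ K A) ^ (m j + 1) /
        (B - algebraMap ℂ K A) ^ m' j / (tc ξ A j i (m j) * (B - algebraMap ℂ K A) ^ m j /
        (B - algebraMap ℂ K A) ^ m' j) = tc ξ A j i (m j + 1) * algebraMap ℂ K (R - A) ^ 1 /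
        (tc ξ A j i (m j) * algebraMap ℂ K (R - A) ^ 0) * (B - algebraMap ℂ K A) /
        algebraMap ℂ K (R - A) := by
      rw [pow_succ]
      field_simp
    rw [h7, map_div₀, map_mul, h5, hρ1, one_mul, div_one] at h6
    exact ht.ne h6
  · have hia : i ≠ a := fun h3 => hi' (h3 ▸ hy'.a)
    have hio : i ≠ o := fun h3 => hy.o (h3 ▸ hi)
    obtain ⟨y, hy1⟩ : ∃ y, ξ.x i = some y :=
      Option.ne_none_iff_exists'.1 fun h3 => hio (univ_inj hu (h3.trans h.o.symm))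
    have h0 : y - algebraMap ℂ K A ≠ 0 := fun h3 =>
      hia (univ_inj hu (by rw [hy1, h.a, sub_eq_zero.1 h3]))
    have h5 := v_one h1 (x1_mem m hi hy1) (div_ne_zero h0 ht0)
    have h6 := v_one h2 (x2_mem m' hi' hy1) (div_ne_zero h0 hρ)
    rw [map_div₀, hρ1, div_one] at h6
    rw [map_div₀, h6, one_div, inv_eq_one] at h5
    exact ht.ne h5

/-- **ORD** -/
theorem ordStmt_of (hP : PrmStmt io) (hK : KtStmt io) : OrdStmt io := by
  intro d M K _ _ _ ξ o a b e A R B h hu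
  refine ⟨fun m n S _ _ hy => ?_, fun m n m' n' S S' hy hy' V ht h1 h2 => ?_⟩
  · obtain ⟨h1, h2⟩ := chart hP hK h hu hy
    have := univ_essFT hu
    refine ⟨h1, exists_ord h2 ?_⟩
    rw [← IntermediateField.restrictScalars_eq_top_iff (K := ℂ)]
    refine eq_top h hu hy (fun x hx => ?_) ?_
    · exact (IntermediateField.adjoin (kT ξ A R B m S) _).algebraMap_mem ⟨x, hx⟩
    · exact IntermediateField.subset_adjoin (kT ξ A R B m S) _ rfl
  · obtain ⟨h3, h4⟩ := sub_ty h hu hy hy' ht h1 h2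
    obtain ⟨h5, h6⟩ := sub_ty h hu hy' hy ht h2 h1
    exact ⟨_root_.funext fun j => le_antisymm (h5 j) (h3 j), h4.antisymm h6⟩

/-- **ORD**, unconditional -/
theorem ordStmt : OrdStmt io := ordStmt_of DropP.prmStmt DropP.ktStmt

end Crest.Agent.X262.Ord23
end
end

-- ▼ part X262/Drop30/Cht
section

/-!
# Row 262, DROP (helper30), part 5: the chart and the side data

* `coeff_g1`, `coeff_g2`, `Sd.cong` : the coefficients of the chart are congruent to those of the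
  sides;
* `Gr` : good reduction; `sd_chart` : the side data of a chart with good reduction.
-/

set_option autoImplicit false

namespace Crest.Agent.X262.Drop30

open Polynomial
open Crest.Agent.X262.Bub96 (hv)

section Alg

variable {K L : Type} [Field K] [Field L] {a ρ : K}

theorem coeff_g1 (a ρ : K) (m : ℕ) (f : K[X]) (l : ℕ) :
    (g1 a ρ m f).coeff l = if l ≤ m then (sc a ρ f).coeff l / ρ ^ m else 0 := by
  simp [g1, coeff_monomial]

theorem coeff_g2 (a ρ : K) (m : ℕ) (f : K[X]) (l : ℕ) :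
    (g2 a ρ m f).coeff l = (ρ ^ m)⁻¹ * (sc a ρ f).coeff (l + m) := by
  have h1 := congrArg (coeff · (l + m)) (modByMonic_add_div (sc a ρ f) (X ^ m))
  have h2 := degree_modByMonic_lt (sc a ρ f) (monic_X_pow m)
  rw [degree_X_pow] at h2
  simp only [coeff_add, coeff_X_pow_mul, coeff_eq_zero_of_degree_lt
    (h2.trans_le (by exact_mod_cast Nat.le_add_left m l)), zero_add] at h1
  rw [g2, coeff_C_mul, h1]

theorem sc_map (φ : K →+* L) (a ρ : K) (f : K[X]) :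
    (sc a ρ f).map φ = sc (φ a) (φ ρ) (f.map φ) := by
  simp [sc_apply, map_comp]

theorem g1_map (φ : K →+* L) (a ρ : K) (m : ℕ) (f : K[X]) :
    (g1 a ρ m f).map φ = g1 (φ a) (φ ρ) m (f.map φ) := by
  ext l
  rw [coeff_map, coeff_g1, coeff_g1, ← sc_map, coeff_map]
  split_ifs <;> simp

theorem g2_map (φ : K →+* L) (a ρ : K) (m : ℕ) (f : K[X]) :
    (g2 a ρ m f).map φ = g2 (φ a) (φ ρ) m (f.map φ) := by
  ext l
  rw [coeff_map, coeff_g2, coeff_g2, ← sc_map, coeff_map]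
  simp

theorem g1_C_mul (a ρ : K) (m : ℕ) (c : K) (f : K[X]) :
    g1 a ρ m (C c * f) = C c * g1 a ρ m f := by
  ext l
  rw [coeff_C_mul, coeff_g1, coeff_g1, map_mul, sc_C, coeff_C_mul]
  split_ifs <;> simp [mul_div_assoc]

theorem g2_C_mul (a ρ : K) (m : ℕ) (c : K) (f : K[X]) :
    g2 a ρ m (C c * f) = C c * g2 a ρ m f := by
  ext l
  rw [coeff_C_mul, coeff_g2, coeff_g2, map_mul, sc_C, coeff_C_mul, mul_left_comm]


end Alg

variable {K : Type} [Field K] {Γ : Type*} [LinearOrderedCommGroupWithZero Γ]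
  {v : Valuation K Γ} {ι : Type*} [Fintype ι] {a ρ R ρ1 ρ2 : K} {m e : ℕ} {f Pi Po : K[X]} {γ : Γ}

theorem coeff_sc_div (hρ : ρ ≠ 0) (a R : K) (f : K[X]) (l : ℕ) :
    (sc a R f).coeff l = (sc a ρ f).coeff l * (R / ρ) ^ l := by
  rw [← comp_C_mul_X_coeff, sc_apply, sc_apply, comp_assoc]
  simp [← mul_assoc, ← C_mul, mul_div_cancel₀ _ hρ]


theorem Le.shrink_lt (h : v ρ < v R) (hf : Le v (sc a R f) 1) :
    Lt v (sc a ρ f - C (f.eval a)) 1 := fun l => by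
  have h0 : 0 < v R := zero_le.trans_lt h
  rw [coeff_sub]
  rcases l with _ | l
  · simp [coeff_zero_sc]
  · rw [coeff_C_succ, sub_zero, coeff_sc_div (ρ := R) (by simpa using h0.ne'), map_mul, map_pow,
      map_div₀]
    exact (mul_le_of_le_one_left' (hf _)).trans_lt
      (pow_lt_one₀ zero_le ((div_lt_one₀ h0).2 h) l.succ_ne_zero)

theorem v_grow (hρ : ρ ≠ 0) (hf : Le v (sc a ρ f) (v ρ ^ m)) {l : ℕ} (hl : l ≤ m) :
    v ((sc a R f).coeff l) ≤ v ρ ^ (m - l) * v R ^ l := by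
  have h0 : v ρ ^ l ≠ 0 := pow_ne_zero _ (by simpa using hρ)
  rw [coeff_sc_div hρ, map_mul, map_pow, map_div₀, div_pow]
  refine (mul_le_mul' (hf l) le_rfl).trans_eq ?_
  rw [← pow_sub_mul_pow (v ρ) hl, mul_assoc, mul_div_cancel₀ _ h0]


theorem Le.grow_lt (hρ : ρ ≠ 0) (h : v ρ < v R) (hf : Le v (sc a ρ f) (v ρ ^ m))
    (hm : f.natDegree ≤ m) : Lt v (sc a R f - C (f.coeff m * R ^ m) * X ^ m) (v R ^ m) := fun l => by
  have h0 : 0 < v R := zero_le.trans_lt h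
  have hR : R ≠ 0 := by simpa using h0.ne'
  rw [coeff_sub, coeff_C_mul, coeff_X_pow]
  rcases lt_trichotomy l m with hl | rfl | hl
  · rw [if_neg hl.ne, mul_zero, sub_zero]
    refine (v_grow hρ hf hl.le).trans_lt ?_
    rw [← pow_sub_mul_pow (v R) hl.le]
    exact mul_lt_mul_of_pos_right (pow_lt_pow_left₀ h zero_le (Nat.sub_ne_zero_of_lt hl))
      (pow_pos h0 _)
  · rw [if_pos rfl, mul_one, coeff_sc_top hR hm, sub_self, map_zero]
    exact pow_pos h0 _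
  · rw [if_neg hl.ne', mul_zero, sub_zero,
      coeff_eq_zero_of_natDegree_lt ((natDegree_sc hR f).trans_lt (hm.trans_lt hl)), map_zero]
    exact pow_pos h0 _

variable {F F1 F2 : ι → K[X]}

/-- the coefficients of the chart are congruent to the coefficients of the sides -/
theorem Sd.cong (hv : Triv v) (h : Sd v a ρ1 ρ2 m e Pi Po F F1 F2) (hρ : ρ ≠ 0) (hlt : v ρ < v R)
    (h1 : ∀ i, Le v (sc a ρ (F1 i)) (v ρ ^ m)) (h2 : ∀ i, Le v (sc a R (F2 i)) 1) (i : ι) :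
    (∀ l ≤ m, v ((g1 a ρ m (F i)).coeff l - (C (ρ ^ m)⁻¹ * sc a ρ (F1 i)).coeff l) < 1) ∧
      ∀ l, v ((g2 a R m (F i)).coeff l - (sc a R (F2 i)).coeff l) < 1 := by
  have h0 : 0 < v R := zero_le.trans_lt hlt
  have hR : R ≠ 0 := by simpa using h0.ne'
  have h0' : v ρ ^ m ≠ 0 := pow_ne_zero _ (by simpa using hρ)
  have hPi : Le v (sc a ρ Pi) (v ρ ^ m) :=
    circ hv fun y hy => (h.hi (some y)).trans (nv_circ hρ h1 hy)
  have hPo : Le v (sc a R Po) 1 := circ hv fun y hy => (h.ho (some y)).trans (nv_circ hR h2 hy)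
  have hβ := (h.rel i).v_node (h.b1 i)
  set β := (F1 i).coeff m with hβ'
  have hA : Le v (sc a ρ (F1 i - C β * Pi)) (v ρ ^ m) := by
    rw [map_sub, map_mul, sc_C]
    exact (h1 i).sub (by simpa using ((le_C _).mono hβ).mul hPi)
  have hd := degree_low h.spl.monic h.spl.di (h.rel i).d1
  refine ⟨fun l hl => ?_, fun l => ?_⟩
  · have e1 := hA.mul_lt (hPo.shrink_lt hlt) h0'
    have e2 := ((h2 i).shrink_lt hlt).mul_le hPi h0'
    rw [mul_one] at e1
    rw [one_mul] at e2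
    have e3 := e1.add e2 l
    rw [h.spl.oa, ← (h.rel i).node, show sc a ρ (F1 i - C β * Pi) * (sc a ρ Po - C 1) +
      (sc a ρ (F2 i) - C β) * sc a ρ Pi = sc a ρ (F i) - sc a ρ (F1 i) by
        conv_rhs => rw [(h.rel i).eq]
        simp only [map_add, map_mul, map_sub, sc_C, C_1, ← hβ']
        ring, coeff_sub] at e3
    rw [coeff_g1, if_pos hl, coeff_C_mul, div_eq_inv_mul, ← mul_sub, map_mul, map_inv₀, map_pow,
      inv_mul_lt_one₀ (zero_lt_iff.2 h0')]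
    exact e3
  · have e1 := hA.grow_lt hρ hlt (natDegree_le_of_degree_le hd.le)
    have e2 := hPi.grow_lt hρ hlt h.spl.di.le
    rw [coeff_eq_zero_of_degree_lt hd, zero_mul, C_0, zero_mul, sub_zero] at e1
    rw [show Pi.coeff m = 1 by rw [← h.spl.di, h.spl.monic.coeff_natDegree], one_mul] at e2
    have e3 := e1.mul_le hPo one_ne_zero
    have e4 := (h2 i).mul_lt e2 one_ne_zero
    rw [mul_one] at e3
    rw [one_mul] at e4
    have e5 := e3.add e4 (l + m)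
    rw [show sc a R (F1 i - C β * Pi) * sc a R Po + sc a R (F2 i) *
      (sc a R Pi - C (R ^ m) * X ^ m) = sc a R (F i) - C (R ^ m) * sc a R (F2 i) * X ^ m by
        conv_rhs => rw [(h.rel i).eq]
        simp only [map_add, map_mul, map_sub, sc_C, ← hβ']
        ring, coeff_sub, coeff_mul_X_pow, coeff_C_mul] at e5
    rw [coeff_g2, ← inv_mul_cancel_left₀ (pow_ne_zero m hR) ((sc a R (F2 i)).coeff l), ← mul_sub,
      map_mul, map_inv₀, map_pow, inv_mul_lt_one₀ (pow_pos h0 _)]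
    exact e5

/-- good reduction -/
structure Gr (v : Valuation K Γ) (m : ℕ) (G : ι → K[X]) : Prop where
  le : ∀ i, Le v (G i) 1
  deg : ∀ i, (G i).natDegree ≤ m
  top : ∃ i, v ((G i).coeff m) = 1
  bez : ∃ A : ι → K[X], (∀ i, Le v (A i) 1) ∧ ∑ i, A i * G i = 1




end Crest.Agent.X262.Drop30
namespace Crest.Agent.X262.Drop30.Gr
end Crest.Agent.X262.Drop30.Gr
end

-- ▼ part X262/Drop30/Gen
section

/-!
# Row 262, DROP (helper30), part 6: `genStmt`
-/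

set_option autoImplicit false
set_option linter.unusedSectionVars false

noncomputable section

namespace Crest.Agent.X262.Drop30

open Crest.Agent.X277 Crest.Agent.X277.BD Crest.Agent.X262.Vb Crest.Agent.X262.Node22 Polynomial
open Crest.Agent.X277.BD.Cyc (Rf plV)
open Crest.Agent.X262.Bub96 (hv)
open Crest.Agent.X262.Wd54 (NP Lat)
open Crest.Agent.X262.Vb.Cfg (GeqN Geq)
open Crest.Agent.X262.Hb (LP)

variable {J : Type} [Fintype J] [DecidableEq J] {io : J → Type} [∀ j, Fintype (io j)]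
  [∀ j, DecidableEq (io j)] {K L k : Type} [Field K] [Algebra ℂ K] [Field L] [Algebra ℂ L]
  [Field k] [Algebra ℂ k] {I I₁ I₂ M : Type} [Fintype I] [Fintype I₁] [Fintype I₂] {N : ℕ}
  {d m n : J → ℕ} {V : RZ ℂ K}

theorem dmap_f (α : k →ₐ[ℂ] K) (ξ : Dat io d M k) (j : J) (i : io j) :
    (ξ.map α).f j i = (ξ.f j i).map (α : k →+* K) := rfl

theorem dmap_x (α : k →ₐ[ℂ] K) (ξ : Dat io d M k) (q : M) : (ξ.map α).x q = (ξ.x q).map α := rfl



/-- reduction after an extension of the field -/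
theorem red_ext {W : RZ ℂ L} {ι : L →ₐ[ℂ] K} {α : Rf W →ₐ[ℂ] Rf V}
    (h : ∀ x, α ((plV W).r x) = (plV V).r (ι x)) {z : Cfg io I L} (hz : z.NZ) :
    Geq ((z.map ι).red (plV V)) ((z.red (plV W)).map α) := by
  have h1 : (LP.hom ι).comp (LP.at V) = (LP.at W).comp (LP.hom α) := LP.ext fun x => by
    rw [LP.r_comp, LP.r_comp, LP.r_hom, LP.r_hom]
    exact (h x).symm
  have h2 := Cfg.red_map ι (LP.at V) hz
  rw [h1] at h2
  exact h2.symm.trans (Cfg.map_red (LP.at W) α hz)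


theorem gl_map (δ : k →ₐ[ℂ] K) {ξ₁ : Dat io m I₁ k} {ξ₂ : Dat io n I₂ k} {n₁ : I₁} {n₂ : I₂}
    (h : Par (ξ₁.cfg.y n₁) (ξ₂.cfg.y n₂)) :
    gl (ξ₁.map δ) n₁ (ξ₂.map δ) n₂ = (gl ξ₁ n₁ ξ₂ n₂).map δ := by
  rw [gl, gl, Cl49.jn_map δ (z := pair ξ₁.cfg ξ₂.cfg) (q := .inl n₁) (q' := .inr n₂) h
    (nz_cfg ξ₂ n₂), Cl49.pair_map, Vb37.cfg_map, Vb37.cfg_map]




end Crest.Agent.X262.Drop30
end
end

-- ▼ part X262/Drop30/Main

/-!
# Row 262, DROP (helper30), part 7: `dropStmt`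
-/

set_option autoImplicit false
set_option linter.unusedSectionVars false

noncomputable section

namespace Crest.Agent.X262.Drop30

open Crest.Agent.X277 Crest.Agent.X277.BD Crest.Agent.X262.Vb Crest.Agent.X262.Node22 Polynomial
open Crest.Agent.X277.BD.Cyc (Rf plV lnr_plV surj_plV)
open Crest.Agent.X262.Bub96 (hv)
open Crest.Agent.X262.Wd54 (NP Lat)
open Crest.Agent.X262.Vb.Cfg (GeqN Geq)
open Crest.Agent.X262.Hb (LP)
open IntermediateField (adjoin)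

variable {J : Type} [Fintype J] [DecidableEq J] {io : J → Type} [∀ j, Fintype (io j)]
  [∀ j, DecidableEq (io j)] {K L k : Type} [Field K] [Algebra ℂ K] [Field L] [Algebra ℂ L]
  [Field k] [Algebra ℂ k] {I I₁ I₂ M P : Type} [Fintype I] [Fintype I₁] [Fintype I₂] {N : ℕ}
  {d m n : J → ℕ} {V : RZ ℂ K}

theorem eft_adjoin {s : Set K} (hs : s.Finite) : Algebra.EssFiniteType ℂ (adjoin ℂ s) :=
  IntermediateField.essFiniteType_iff.2 (IntermediateField.fg_adjoin_of_finite hs)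

/-- a field generated by a finite family -/
theorem dim_adjoin [Fintype P] (x : P → K) : dim ℂ (adjoin ℂ (Set.range x)) ≤ Fintype.card P ∧
    (Fintype.card P ≤ dim ℂ (adjoin ℂ (Set.range x)) → AlgebraicIndependent ℂ x) := by
  have := eft_adjoin (Set.finite_range x)
  let x' : P → adjoin ℂ (Set.range x) := fun p =>
    ⟨x p, IntermediateField.subset_adjoin _ _ ⟨p, rfl⟩⟩
  have h1 : adjoin ℂ (Set.range x') = ⊤ := by
    refine IntermediateField.map_injective (adjoin ℂ (Set.range x)).val ?_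
    rw [IntermediateField.adjoin_map, ← Set.range_comp, ← AlgHom.fieldRange_eq_map,
      IntermediateField.fieldRange_val]
    rfl
  have : Algebra.IsAlgebraic (Algebra.adjoin ℂ (Set.range x')) (adjoin ℂ (Set.range x)) := by
    rw [← IntermediateField.isAlgebraic_adjoin_iff_top, h1]
    exact ⟨fun y => isAlgebraic_algebraMap (⟨y, trivial⟩ : (⊤ : IntermediateField ℂ _))⟩
  refine ⟨?_, fun h => ?_⟩
  · have h2 := Algebra.IsAlgebraic.trdeg_le_cardinalMk ℂ (Set.range x')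
    rw [trdeg_eq_dim] at h2
    exact_mod_cast h2.trans (Cardinal.mk_range_le.trans_eq (Cardinal.mk_fintype P))
  · have h2 := Algebra.IsAlgebraic.isTranscendenceBasis_of_le_trdeg_of_finite ℂ x'
      (by rw [trdeg_eq_dim, Cardinal.mk_fintype]; exact_mod_cast h)
    exact h2.1.map' (f := (adjoin ℂ (Set.range x)).val) (adjoin ℂ (Set.range x)).val.injective

/-- finitely generated subfields of the residue field -/
theorem dim_res [Algebra.EssFiniteType ℂ K] [Algebra.EssFiniteType ℂ k] (β : k →ₐ[ℂ] Rf V) :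
    dim ℂ k ≤ dim ℂ K ∧ (V.1 ≠ ⊤ → dim ℂ k + 1 ≤ dim ℂ K) := by
  obtain ⟨t, ht⟩ := exists_isTranscendenceBasis ℂ k
  have h1 := ht.cardinalMk_eq_trdeg
  rw [trdeg_eq_dim] at h1
  obtain ⟨e⟩ := Cardinal.mk_eq_nat_iff.1 h1
  choose y hy using fun i : Fin (dim ℂ k) => surj_plV V (β (e.symm i))
  have h2 := (Geo.resInd_iff (lnr_plV V) fun i => (y i).2).2 (by
    simp only [Pl.r_coe, hy]
    exact (ht.1.comp _ e.symm.injective).map' β.injective)
  exact ⟨h2.le trdeg_eq_dim, fun h => h2.succ_le trdeg_eq_dim V.2 h⟩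

/-- congruent independent families -/
theorem mem_of_cong {δ : k →ₐ[ℂ] K} (hV : ∀ t, δ t ∈ V.1) {x : P → k}
    (hx : AlgebraicIndependent ℂ x) {x' : P → K} (h : ∀ p, V.v (x' p - δ (x p)) < 1) :
    ∀ t ∈ adjoin ℂ (Set.range x'), t ∈ V.1 := by
  have h1 := fun p => r_congr (p := plV V) (hV _) (h p)
  have h2 : (fun p => (plV V).r (x' p)) = Wd.rt δ V hV ∘ x := funext fun p => (h1 p).2
  have h3 := (Geo.resInd_iff (lnr_plV V) fun p => (h1 p).1).2
    (h2 ▸ hx.map' (Wd.rt δ V hV).injective)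
  intro t ht
  obtain ⟨r, s, rfl⟩ := (IntermediateField.mem_adjoin_range_iff _ _ _).1 ht
  have h4 : ∀ q : MvPolynomial P ℂ, V.v (MvPolynomial.aeval x' q) ≤ 1 := fun q =>
    RZ.le_one_iff.2 (Geo.r_aeval (lnr_plV V) (fun p => (h1 p).1) q).1
  refine RZ.le_one_iff.1 ?_
  by_cases hs : s = 0
  · simp [hs]
  · rw [map_div₀, show V.v (MvPolynomial.aeval x' s) = 1 from h3.2 s hs, div_one]
    exact h4 r

theorem v_div_sub {x y x' y' : K} (hx : V.v x ≤ 1) (hy : V.v y = 1) (h1 : V.v (x' - x) < 1)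
    (h2 : V.v (y' - y) < 1) : V.v (x' / y' - x / y) < 1 := by
  have h3 : V.v y' = 1 := (v_eq_of_sub_lt (hy ▸ h2)).trans hy
  have h4 : y ≠ 0 := RZ.ne_zero_iff.1 (hy ▸ one_ne_zero)
  have h5 : y' ≠ 0 := RZ.ne_zero_iff.1 (h3 ▸ one_ne_zero)
  rw [show x' / y' - x / y = ((x' - x) * y - x * (y' - y)) / (y' * y) by field_simp; ring,
    map_div₀, map_mul, h3, hy, mul_one, div_one]
  refine V.v.map_sub_lt ?_ ?_
  · rwa [map_mul, hy, mul_one]
  · rw [map_mul]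
    exact (mul_le_of_le_one_left' hx).trans_lt h2

theorem mdim_add [Fintype M] (hd : ∀ j, m j + n j = d j) (i₀ : (j : J) → io j) {a b c : ℕ}
    (h : a + b = Fintype.card M + 2) (ha : 3 ≤ a) (hb : 3 ≤ b)
    (hc : c + dimP io = mdim io m a + mdim io n b) : c = mdim io d (Fintype.card M) - 1 := by
  have h1 : ∑ j, Fintype.card (io j) * d j =
      ∑ j, Fintype.card (io j) * m j + ∑ j, Fintype.card (io j) * n j := by
    simp only [← hd, mul_add, Finset.sum_add_distrib]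
  simp only [mdim, DropP.sum_mdim i₀] at hc ⊢
  omega

theorem three_le [Fintype M] {ξ : Dat io d M K} {p q r : M} (h : Nml ξ p q r) :
    3 ≤ Fintype.card M := by
  have h1 := DropP.card_marks (a := p) (b := q) (c := r)
    (fun e => by subst e; cases h.1.symm.trans h.2.1) (fun e => by
      subst e; cases h.1.symm.trans h.2.2)
    fun e => by subst e; exact zero_ne_one (Option.some.inj (h.2.1.symm.trans h.2.2))
  omega

theorem exists_unit {Γ : Type} [LinearOrderedCommGroupWithZero Γ] {v : Valuation K Γ} {ι : Type}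
    [Fintype ι] {x : ι → K} (h1 : 1 ≤ nv v x) (h2 : ∀ i, v (x i) ≤ 1) : ∃ i, v (x i) = 1 := by
  by_contra h0
  push Not at h0
  exact h1.not_gt ((Finset.sup_lt_iff (bot_le.trans_lt (zero_lt_one' Γ))).2 fun i _ =>
    lt_of_le_of_ne (h2 i) (h0 i))

theorem exists_nrm2 {M₁ M₂ : Type} (ζ₁ : Dat io m M₁ k) (ζ₂ : Dat io n M₂ k) (N : ℕ) :
    ∃ (L : Type) (_ : Field L) (_ : Algebra ℂ L) (γ : k →ₐ[ℂ] L) (a b : ℕ)
      (ξ₁ : Dat io m (M₁ ⊕ Fin a) L) (ξ₂ : Dat io n (M₂ ⊕ Fin b) L), deg γ ≠ 0 ∧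
      ξ₁.res Sum.inl = ζ₁.map γ ∧ ξ₂.res Sum.inl = ζ₂.map γ ∧ ξ₁.NrmUp N ∧ ξ₂.NrmUp N := by
  obtain ⟨L₁, _, _, _, _, _, a, ξ₁, h1, h2⟩ := Bub96.exists_nrm ζ₁ N
  obtain ⟨L₂, _, _, _, _, _, b, ξ₂, h3, h4⟩ :=
    Bub96.exists_nrm (ζ₂.map (IsScalarTower.toAlgHom ℂ k L₁)) N
  let : Algebra k L₂ := ((algebraMap L₁ L₂).comp (algebraMap k L₁)).toAlgebra
  have : IsScalarTower k L₁ L₂ := IsScalarTower.of_algebraMap_eq fun _ => rfl
  have := Module.Finite.trans (R := k) L₁ L₂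
  refine ⟨L₂, inferInstance, inferInstance,
    (IsScalarTower.toAlgHom ℂ L₁ L₂).comp (IsScalarTower.toAlgHom ℂ k L₁), a, b,
    ξ₁.map (IsScalarTower.toAlgHom ℂ L₁ L₂), ξ₂, (Module.finrank_pos (R := k) (M := L₂)).ne', ?_,
    by rw [h3, Vb37.dmap_map], Vb37.nrmUp_map h2 _, h4⟩
  rw [← Vb37.dmap_res, h1, Vb37.dmap_map]

theorem exists_sub (s : Finset K) : ∃ k : IntermediateField ℂ K, (s : Set K) ⊆ k ∧
    Algebra.EssFiniteType ℂ k ∧ ∀ (ψ : K →ₐ[ℂ] L) (T : Set L), ψ '' s ⊆ T →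
      (ψ.comp k.val).fieldRange ≤ adjoin ℂ T :=
  ⟨adjoin ℂ s, IntermediateField.subset_adjoin _ _, eft_adjoin s.finite_toSet, fun ψ T h => by
    rw [AlgHom.fieldRange_eq_map, ← IntermediateField.map_map, ← AlgHom.fieldRange_eq_map,
      IntermediateField.fieldRange_val, IntermediateField.adjoin_map]
    exact IntermediateField.adjoin.mono _ _ _ h⟩

/-- the reduction of a configuration over a small field is small -/
theorem small_of {α : L →ₐ[ℂ] K} (hα : ∀ x : K, IsAlgebraic α.fieldRange x)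
    [Algebra.EssFiniteType ℂ k] (p : LP k K) {z : Cfg io I L} {z' : Cfg io I₁ k}
    (hz : z'.NZ) {g : M → I} {g' : M → I₁} (h : Lat N (z.map α) g (z'.red p.toPl) g')
    {r : ℕ} (h1 : dim ℂ k ≤ r) (h2 : p.V.1 = ⊤ → dim ℂ k < r) : Small io N z g r := by
  classical
  obtain ⟨s, hs⟩ := DropD.fgStmt N I₁ (Rf p.V) (z'.red (plV p.V))
  obtain ⟨k₁, h3, _, h4⟩ := exists_sub (L := K) s
  obtain ⟨z₀, e1, e2⟩ := hs k₁ h3
  have h5 : GeqN N (z'.red p.toPl) (z₀.map (p.emb.comp k₁.val)) := by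
    rw [← Cfg.map_map]
    exact ((Cfg.red_fac p hz).geqN N).trans ((GeqN.of_eq e1 e2).map _)
  obtain ⟨E', α', β', q1, -, -, q4⟩ := DropD.descStmt N M I I₁ L k₁ K α (p.emb.comp k₁.val) z g z₀
    g' (s.image p.emb) hα (h4 _ _ (by rw [Finset.coe_image]; exact Set.subset_union_right))
    (lat_congr h (Cfg.Geq.rfl.geqN N) h5)
  refine ⟨E', k₁, inferInstance, inferInstance, inferInstance, inferInstance, inferInstance, α', β',
    I₁, inferInstance, z₀, g', q1, ?_, q4⟩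
  rw [trdeg_eq_dim, Nat.cast_lt]
  have h6 := dim_res k₁.val
  by_cases h7 : p.V.1 = ⊤
  · exact h6.1.trans_lt (h2 h7)
  · exact (h6.2 h7).trans h1

/-- **DROP** -/
theorem dropStmt : DropStmt io := by
  classical
  intro d N M I K₀ L _ _ _ _ _ _ x₀ o a b e A R B hsh θ ξ g hξ hN W hlt
  obtain ⟨K, _, _, _, ι₀, V, α, hV, hα, halg, hlift⟩ := DropD.extStmt L W
  set φ : K₀ →ₐ[ℂ] K := ι₀.comp θ with hφ
  set a₀ : K := algebraMap ℂ K A with ha₀
  set ρ : K := φ (B - algebraMap ℂ K₀ A) with hρ'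
  set R₀ : K := algebraMap ℂ K (R - A) with hR₀
  have hρ : ρ ≠ 0 := (map_ne_zero φ).2 (sub_ne_zero.2 hsh.ab)
  have hR : V.v R₀ = 1 := V.v_alg (sub_ne_zero.2 hsh.ae)
  have hR' : R₀ ≠ 0 := RZ.ne_zero_iff.1 (hR ▸ one_ne_zero)
  have hρ1 : V.v ρ < V.v R₀ := hR ▸ (Wd.dn_lt_one (α := ι₀)).1 (hV.symm ▸ hlt)
  have hf : ∀ j i, (ξ.map ι₀).f j i = (x₀.f j i).map (φ : K₀ →+* K) := fun j i => by
    have h6 : ξ.f j i = (x₀.f j i).map (θ : K₀ →+* L) := congrFun (congrFun (congrArg Dat.f hξ) j) i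
    rw [dmap_f, h6, Polynomial.map_map]
    rfl
  have hx : ∀ i, (ξ.map ι₀).x (g i) = (x₀.x i).map φ := fun i => by
    have h6 : ξ.x (g i) = (x₀.x i).map θ := congrFun (congrArg Dat.x hξ) i
    rw [dmap_x, h6, Option.map_map]
    rfl
  have hN' := Vb37.nrmUp_map hN ι₀
  have hG := (red_ext hα (nz_cfg ξ)).geqN N
  rw [← Vb37.cfg_map] at hG
  generalize ξ.map ι₀ = ξ' at hf hx hN' hG
  obtain ⟨ρ1, ρ2, y, h1, h2, h3, h4, h5, hr⟩ := exists_ann hρ hρ1 a₀
    (Finset.univ.biUnion fun j => (Finset.range (2 * Fintype.card (io j))).biUnion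
      fun c => (vf (ξ'.f j) c).roots.toFinset)
  choose m n s Pi Po F1 F2 hs hd hS using fun j => exists_sd (a := a₀) (triv V) h1 (h3.trans h4)
    (ξ'.cp.1 j) ((ξ'.cp.2.1 j).imp fun i hi h0 => hi (by rw [h0, coeff_zero]))
    fun c hc h0 t ht => hr t (Finset.mem_biUnion.2 ⟨j, Finset.mem_univ _, Finset.mem_biUnion.2
      ⟨c, Finset.mem_range.2 hc, Multiset.mem_toFinset.2 ((mem_roots h0).2 ht)⟩⟩)
  have xa : ξ'.x (g a) = some a₀ := by rw [hx, hsh.a]; simp [ha₀]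
  have xb : ξ'.x (g b) = some (φ B) := by rw [hx, hsh.b]; rfl
  have xe : ξ'.x (g e) = some (algebraMap ℂ K R) := by rw [hx, hsh.e]; simp
  have xo : ξ'.x (g o) = none := by rw [hx, hsh.o]; rfl
  have eb : φ B - a₀ = ρ := by simp [ha₀, hρ']
  have ee : algebraMap ℂ K R - a₀ = R₀ := by simp [ha₀, hR₀]
  let S : Set M := {i | Ins V a₀ ρ2 (ξ'.x (g i))}
  have hty : IsTy d m n S o a b e := ⟨hd, ⟨_, xa, by simpa using zero_le.trans_lt h4⟩,
    ⟨_, xb, eb ▸ h2.trans (h3.trans h4)⟩, fun ⟨t, ht, _⟩ => by simp [xo] at ht,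
    fun ⟨t, ht, h6⟩ => by
      obtain rfl : algebraMap ℂ K R = t := Option.some.inj (xe.symm.trans ht)
      exact (h5.trans (ee ▸ h6)).false⟩
  have hc : ∀ j t, ∃ i, hv (m j + n j) (C (s j) * ξ'.f j i) t ≠ 0 := fun j t =>
    (Vb37.cp_hv ξ'.cp j t).imp fun i hi => by rw [hv_C_mul, hd]; exact mul_ne_zero (hs j) hi
  have hρm : ∀ j, (ρ ^ m j)⁻¹ ≠ 0 := fun j => inv_ne_zero (pow_ne_zero _ hρ)
  let η₁ : Dat io m (Mi S) K := ⟨fun j i => C (ρ ^ m j)⁻¹ * sc a₀ ρ (F1 j i),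
    fun q => q.elim none fun i => nx a₀ ρ (ξ'.x (g i.1)),
    cp_aff (Vb37.cp_of_closed (RingHom.id K) (fun j i => ((hS j).rel i).d1) fun j t => by
      simpa only [Polynomial.map_id] using (hS j).cop1 (hc j) t) hρm a₀ hρ⟩
  let η₂ : Dat io n (Mo S) K := ⟨fun j i => C 1 * sc a₀ R₀ (F2 j i),
    fun q => q.elim (some 0) fun i => nx a₀ R₀ (ξ'.x (g i.1)),
    cp_aff (Vb37.cp_of_closed (RingHom.id K) (fun j i => ((hS j).rel i).d2) fun j t => by
      simpa only [Polynomial.map_id] using (hS j).cop2 (hc j) t) (fun _ => one_ne_zero) a₀ hR'⟩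
  have t₁ : ∀ j i, (η₁.f j i).coeff (m j) = (F1 j i).coeff (m j) := fun j i => by
    simp only [η₁]
    rw [coeff_C_mul, coeff_sc_top hρ ((hS j).rel i).d1, mul_comm _ (ρ ^ m j),
      inv_mul_cancel_left₀ (pow_ne_zero _ hρ)]
  have t₂ : ∀ j i, (η₂.f j i).coeff 0 = (F1 j i).coeff (m j) := fun j i => by
    simp only [η₂]
    rw [C_1, one_mul, coeff_zero_sc, ((hS j).rel i).node]
  have hu : ∀ j, ∃ i, V.v ((F1 j i).coeff (m j)) = 1 := fun j => exists_unit (by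
    have h6 := (hS j).spl.monic.coeff_natDegree
    have h7 := (hS j).hi none
    rw [(hS j).spl.di] at h6
    rwa [hv_none, h6, map_one] at h7) fun i => ((hS j).rel i).v_node ((hS j).b1 i)
  choose i₀ hi₀ using hu
  have hβ : ∀ j, (F1 j (i₀ j)).coeff (m j) ≠ 0 := fun j => RZ.ne_zero_iff.1 (hi₀ j ▸ one_ne_zero)
  have m₁ : Nml η₁ none (some ⟨a, hty.a⟩) (some ⟨b, hty.b⟩) :=
    ⟨rfl, by simp [η₁, xa, nx], by simp [η₁, xb, nx, eb, hρ]⟩
  have m₂ : Nml η₂ (some ⟨o, hty.o⟩) none (some ⟨e, hty.e⟩) :=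
    ⟨by simp [η₂, xo, nx], rfl, by simp [η₂, xe, nx, ee, hR']⟩
  obtain ⟨hcard, hk⟩ := DropP.prmStmt m n (Mi S) (Mo S) K η₁ η₂ _ _ _ _ _ _ i₀ m₁ m₂ (by
    rw [show η₁.pt none = η₂.pt (some 0) from funext fun j => funext fun i =>
      (t₁ j i).trans ((t₂ j i).symm.trans (coeff_zero_eq_eval_zero _))]
    exact Par.refl _) fun j => t₁ j _ ▸ hβ j
  obtain ⟨P, hP⟩ : ∃ P, P = prm i₀ m n (none : Mi S) (some ⟨a, hty.a⟩) (some ⟨b, hty.b⟩)
    (some ⟨o, hty.o⟩ : Mo S) none (some ⟨e, hty.e⟩) η₁.f η₂.f η₁.x η₂.x := ⟨_, rfl⟩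
  have hP' := dim_adjoin P
  have hft := eft_adjoin (Set.finite_range P)
  have hPk : ∀ p, P p ∈ adjoin ℂ (Set.range P) := fun p =>
    IntermediateField.subset_adjoin _ _ ⟨p, rfl⟩
  rw [← hP] at hk
  generalize adjoin ℂ (Set.range P) = k at hk hP' hft hPk
  obtain ⟨ζ₁, ζ₂, f₁, f₂, x₁, x₂, hgl, -⟩ := hk k rfl
  by_cases hB : AlgebraicIndependent ℂ P ∧ ∀ t, k.val t ∈ V.1
  · refine Or.inr ⟨m, n, S, hty, fun x hx' => ?_⟩
    have l₁ : ∀ j i, Le V.v (η₁.f j i) 1 := fun j i l => by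
      have h6 := RZ.le_one_iff.2 (hB.2 ((ζ₁.f j i).coeff l))
      have h7 := congrArg (coeff · l) (f₁ j i)
      simp only [dmap_f, coeff_map, coeff_C_mul] at h7
      rwa [show k.val ((ζ₁.f j i).coeff l) = _ from h7, map_mul, map_inv₀, t₁, hi₀, inv_one,
        one_mul] at h6
    have l₂ : ∀ j i, Le V.v (η₂.f j i) 1 := fun j i l => by
      have h6 := RZ.le_one_iff.2 (hB.2 ((ζ₂.f j i).coeff l))
      have h7 := congrArg (coeff · l) (f₂ j i)
      simp only [dmap_f, coeff_map, coeff_C_mul] at h7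
      rwa [show k.val ((ζ₂.f j i).coeff l) = _ from h7, map_mul, map_inv₀, t₂, hi₀, inv_one,
        one_mul] at h6
    have hcong := fun j => (hS j).cong (triv V) hρ hρ1 (fun i => by
      have h6 := (l₁ j i).C_mul (ρ ^ m j)
      simp only [η₁] at h6
      rwa [← mul_assoc, ← C_mul, mul_inv_cancel₀ (pow_ne_zero _ hρ), C_1, one_mul, mul_one,
        map_pow] at h6) fun i => by simpa [η₂] using l₂ j i
    have c₁ : ∀ j i l, l ≤ m j → V.v (s j * φ ((g1 (algebraMap ℂ K₀ A) (B - algebraMap ℂ K₀ A)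
        (m j) (x₀.f j i)).coeff l) - (η₁.f j i).coeff l) < 1 := fun j i l hl => by
      have h6 := (hcong j i).1 l hl
      have h7 := g1_map (φ : K₀ →+* K) (algebraMap ℂ K₀ A) (B - algebraMap ℂ K₀ A) (m j) (x₀.f j i)
      rw [RingHom.coe_coe, φ.commutes] at h7
      rwa [g1_C_mul, hf, ← h7, coeff_C_mul, coeff_map] at h6
    have c₂ : ∀ j i l, V.v (s j * φ ((g2 (algebraMap ℂ K₀ A) (algebraMap ℂ K₀ (R - A))
        (m j) (x₀.f j i)).coeff l) - (η₂.f j i).coeff l) < 1 := fun j i l => by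
      have h6 := (hcong j i).2 l
      have h7 := g2_map (φ : K₀ →+* K) (algebraMap ℂ K₀ A) (algebraMap ℂ K₀ (R - A)) (m j)
        (x₀.f j i)
      rw [RingHom.coe_coe, φ.commutes, φ.commutes] at h7
      rw [g2_C_mul, hf, ← h7, coeff_C_mul, coeff_map] at h6
      simpa only [η₂, C_1, one_mul, RingHom.coe_coe] using h6
    rw [DropP.ktStmt d m n M K₀ x₀ o a b e A R B S hty i₀ hsh fun j h0 => by
      have h6 := c₁ j (i₀ j) _ le_rfl
      rw [h0, map_zero, mul_zero, zero_sub, Valuation.map_neg, t₁, hi₀] at h6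
      exact h6.false] at hx'
    have h6 := mem_of_cong hB.2 (x := fun p => ⟨P p, hPk p⟩) (.of_comp k.val hB.1)
      (x' := φ ∘ cprm x₀ o a b e A R B hty i₀) (fun p => by
      change V.v (_ - P p) < 1
      rcases p with p | p | p | q | q
      · simp only [Function.comp, cprm, hP, prm, map_div₀]
        rw [← mul_div_mul_left _ _ (hs p.1)]
        exact v_div_sub (l₁ _ _ _) (t₁ _ _ ▸ hi₀ _) (c₁ _ _ _ p.2.2.2.le) (c₁ _ _ _ le_rfl)
      · simp only [Function.comp, cprm, hP, prm, map_div₀]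
        rw [← mul_div_mul_left _ _ (hs p.1)]
        exact v_div_sub (l₂ _ _ _) (t₂ _ _ ▸ hi₀ _) (c₂ _ _ _) (c₂ _ _ _)
      · simp only [Function.comp, cprm, hP, prm, map_div₀]
        rw [← mul_div_mul_left _ _ (hs p.1)]
        exact v_div_sub (l₁ _ _ _) (t₁ _ _ ▸ hi₀ _) (c₁ _ _ _ le_rfl) (c₁ _ _ _ le_rfl)
      · obtain ⟨_ | i, -⟩ := q
        · simp [cprm, hP, prm, η₁]
        · rcases h7 : x₀.x i.1 with _ | t <;> simp [cprm, hP, prm, η₁, hx, h7, nx, ha₀, hρ']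
      · obtain ⟨_ | i, -⟩ := q
        · simp [cprm, hP, prm, η₂]
        · rcases h7 : x₀.x i.1 with _ | t <;> simp [cprm, hP, prm, η₂, hx, h7, nx, ha₀, hR₀])
      (φ x) (by
        rw [Set.range_comp, ← IntermediateField.adjoin_map]
        exact ⟨x, hx', rfl⟩)
    exact hV ▸ (h6 : θ x ∈ (Wd.dn ι₀ V).1)
  · refine Or.inl ?_
    obtain ⟨L', _, _, γ, u₁, u₂, ξ₁, ξ₂, hγ, r₁, r₂, hN₁, hN₂⟩ := exists_nrm2 ζ₁ ζ₂ N
    obtain ⟨δ, hδγ, -⟩ := hlift _ L' γ k.val hγ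
    have d₁ : (ξ₁.map δ).res Sum.inl = ζ₁.map k.val := by
      rw [← Vb37.dmap_res, r₁, Vb37.dmap_map, hδγ]
    have d₂ : (ξ₂.map δ).res Sum.inl = ζ₂.map k.val := by
      rw [← Vb37.dmap_res, r₂, Vb37.dmap_map, hδγ]
    have y₁ : ∀ q, (ξ₁.map δ).x (.inl q) = η₁.x q := congrFun ((congrArg Dat.x d₁).trans x₁)
    have y₂ : ∀ q, (ξ₂.map δ).x (.inl q) = η₂.x q := congrFun ((congrArg Dat.x d₂).trans x₂)
    have hL := lat_side hd hs hS h1 h3 h4 (ζ₁ := ξ₁.map δ) (ζ₂ := ξ₂.map δ)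
      (s₁ := fun j => ((F1 j (i₀ j)).coeff (m j))⁻¹ * (ρ ^ m j)⁻¹)
      (s₂ := fun j => ((F1 j (i₀ j)).coeff (m j))⁻¹)
      (fun j => mul_ne_zero (inv_ne_zero (hβ j)) (hρm j)) (fun j => inv_ne_zero (hβ j)) hρ hR'
      (fun j i => (congrFun (congrFun (congrArg Dat.f d₁) j) i).trans (by
        rw [f₁, t₁, C_mul, mul_assoc]))
      (fun j i => (congrFun (congrFun (congrArg Dat.f d₂) j) i).trans (by
        rw [f₂, t₂]
        simp [η₂]))
      hN' (Vb37.nrmUp_map hN₁ _) (Vb37.nrmUp_map hN₂ _) (y₁ none) (y₂ none) g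
      (mk S Sum.inl Sum.inl) fun i => by
        unfold mk
        split_ifs with hi
        · exact ⟨hi, y₁ _⟩
        · exact ⟨out_of_not (h3.trans h4) hi, y₂ _⟩
    have hPar : Par (ξ₁.cfg.y (.inl none)) (ξ₂.cfg.y (.inl none)) := by
      change Par ((ξ₁.res Sum.inl).pt ((ξ₁.res Sum.inl).x none))
        ((ξ₂.res Sum.inl).pt ((ξ₂.res Sum.inl).x none))
      rw [r₁, r₂, dmap_x, dmap_x, (DropP.nml_of_map x₁ m₁).1, (DropP.nml_of_map x₂ m₂).2.1,
        show (ζ₁.map γ).pt (Option.map γ none) = (ζ₂.map γ).pt (Option.map γ (some 0)) from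
          funext fun j => funext fun i => by rw [Vb37.dmap_pt, Vb37.dmap_pt, hgl]]
      exact Par.refl _
    rw [gl_map δ hPar] at hL
    have := Vb10.eft_of_deg γ (Nat.pos_of_ne_zero hγ)
    have hm := mdim_add hd i₀ (M := M) (by
      simp only [Fintype.card_option, Fintype.card_subtype_compl]
      have := Fintype.card_subtype_le (· ∈ S)
      omega) (three_le m₁) (three_le m₂) hcard
    rw [← Nat.card_eq_fintype_card, hm, ← (deg_pos_iff γ).1 (Nat.pos_of_ne_zero hγ)] at hP'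
    exact small_of halg ((LP.hom δ).comp (LP.at V)) (nz_gl _ _)
      (lat_congr hL hG ((Cfg.red_map δ (LP.at V) (nz_gl _ _)).symm.geqN N)) hP'.1 fun h0 =>
      lt_of_not_ge fun h6 => hB ⟨hP'.2 h6, fun t => by
        have h7 : γ t ∈ ((LP.hom δ).comp (LP.at V)).V.1 := h0 ▸ trivial
        have h8 := h7.2
        rwa [LP.r_hom, show δ (γ t) = k.val t from DFunLike.congr_fun hδγ t] at h8⟩

end Crest.Agent.X262.Drop30
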