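import Crest.Agent.X262.Drop30.Gs

/-!
# Row 262, DROP (helper30), part 1: splitting a form along an annulus

* `Rad v a ρ m Pi Po` : on the circle `|z - a| = |ρ|`, `Pi ≡ (z - a) ^ m` and `Po ≡ 1`;
* `Spl` : the same on two circles;
* `Rel a m e Pi Po σ σ1 σ2` : `σ = (σ1 - β Pi) Po + σ2 Pi`, `β` the common value at the node;
* `Bd` : the bound for the pair; `Rel.ins`, `Rel.out` : the estimates inside and outside.
-/

set_option autoImplicit false

namespace Crest.Agent.X262.Drop30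

open Polynomial
open Crest.Agent.X262.Bub96 (hv)

variable {K : Type*} [Field K] {Γ : Type*} [LinearOrderedCommGroupWithZero Γ]
  {v : Valuation K Γ}

theorem v_eq_of_sub_lt {x y : K} (h : v (x - y) < v y) : v x = v y := by
  have h1 := v.map_add_eq_of_lt_right h
  rwa [sub_add_cancel] at h1

@[simp] theorem hv_none (d : ℕ) (f : K[X]) : hv d f none = f.coeff d := rfl

@[simp] theorem hv_some (d : ℕ) (f : K[X]) (y : K) : hv d f (some y) = f.eval y := rfl

theorem hv_mul {d e : ℕ} {f g : K[X]} (hf : f.natDegree ≤ d) (hg : g.natDegree ≤ e)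
    (y : Option K) : hv (d + e) (f * g) y = hv d f y * hv e g y := by
  cases y with
  | none => exact coeff_mul_add_eq_of_natDegree_le hf hg
  | some y => exact eval_mul

theorem hv_C_mul (d : ℕ) (c : K) (f : K[X]) (y : Option K) :
    hv d (C c * f) y = c * hv d f y := by
  cases y <;> simp

theorem hv_add (d : ℕ) (f g : K[X]) (y : Option K) : hv d (f + g) y = hv d f y + hv d g y := by
  cases y <;> simp


theorem hv_sum {ι : Type*} (s : Finset ι) (d : ℕ) (f : ι → K[X]) (y : Option K) :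
    hv d (∑ i ∈ s, f i) y = ∑ i ∈ s, hv d (f i) y := by
  cases y <;> simp [eval_finsetSum]

theorem hv_pow {d : ℕ} {f : K[X]} (hf : f.natDegree ≤ d) (k : ℕ) (y : Option K) :
    hv (k * d) (f ^ k) y = hv d f y ^ k := by
  induction k with
  | zero => cases y <;> simp
  | succ k ih =>
    rw [Nat.succ_mul, pow_succ, hv_mul (natDegree_pow_le_of_le k hf) hf, ih, pow_succ]

theorem hv_prod {ι : Type*} (s : Finset ι) {d : ι → ℕ} {f : ι → K[X]}
    (hf : ∀ i, (f i).natDegree ≤ d i) (y : Option K) :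
    hv (∑ i ∈ s, d i) (∏ i ∈ s, f i) y = ∏ i ∈ s, hv (d i) (f i) y := by
  classical
  induction s using Finset.induction_on with
  | empty => cases y <;> simp
  | insert a s ha ih =>
    rw [Finset.sum_insert ha, Finset.prod_insert ha, Finset.prod_insert ha, hv_mul (hf a)
      ((natDegree_prod_le _ _).trans (Finset.sum_le_sum fun i _ => hf i)), ih]

/-- on the circle `|z - a| = |ρ|` : `Pi ≡ (z - a) ^ m`, `Po ≡ 1` -/
structure Rad (v : Valuation K Γ) (a ρ : K) (m : ℕ) (Pi Po : K[X]) : Prop where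
  ne : ρ ≠ 0
  i : Lt v (sc a ρ Pi - C (ρ ^ m) * X ^ m) (v ρ ^ m)
  o : Lt v (sc a ρ Po - 1) 1

variable {a ρ ρ1 ρ2 : K} {m m' e e' : ℕ} {Pi Po Pi' Po' σ σ1 σ2 : K[X]} {M η : Γ}

namespace Rad

theorem v_ne (h : Rad v a ρ m Pi Po) : v ρ ≠ 0 := by simpa using h.ne

theorem le_top (ρ : K) (m : ℕ) : Le v (C (ρ ^ m) * X ^ m) (v ρ ^ m) := by
  simpa using (le_X_pow (v := v) m).C_mul (ρ ^ m)

theorem le_i (h : Rad v a ρ m Pi Po) : Le v (sc a ρ Pi) (v ρ ^ m) := by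
  simpa using h.i.le.add (le_top ρ m)

theorem le_o (h : Rad v a ρ m Pi Po) : Le v (sc a ρ Po) 1 := by
  simpa using h.o.le.add le_one

theorem one (hρ : ρ ≠ 0) : Rad v a ρ 0 1 1 :=
  ⟨hρ, by simpa using lt_zero one_ne_zero, by simpa using lt_zero one_ne_zero⟩

theorem mul (h : Rad v a ρ m Pi Po) (h' : Rad v a ρ m' Pi' Po') :
    Rad v a ρ (m + m') (Pi * Pi') (Po * Po') := by
  refine ⟨h.ne, ?_, ?_⟩
  · have h1 := (h.i.mul_le h'.le_i (pow_ne_zero _ h.v_ne)).add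
      ((le_top ρ m).mul_lt h'.i (pow_ne_zero _ h.v_ne))
    rw [← pow_add] at h1
    convert h1 using 1
    rw [map_mul, pow_add, C_mul]
    ring
  · have h1 := h.o.mul_le h'.le_o one_ne_zero
    rw [mul_one] at h1
    convert h1.add h'.o using 1
    rw [map_mul]
    ring

theorem lin_in (hρ : ρ ≠ 0) {y : K} (hy : v (y - a) < v ρ) : Rad v a ρ 1 (X - C y) 1 := by
  refine ⟨hρ, ?_, by simpa using lt_zero one_ne_zero⟩
  have h1 : sc a ρ (X - C y) - C (ρ ^ 1) * X ^ 1 = C (a - y) := by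
    rw [map_sub, sc_X, sc_C, C_sub, pow_one, pow_one]
    ring
  rw [h1, pow_one]
  exact (le_C _).lt (by rwa [v.map_sub_swap])

theorem lin_out (hρ : ρ ≠ 0) {y : K} (hy : v ρ < v (y - a)) :
    Rad v a ρ 0 1 (C (a - y)⁻¹ * (X - C y)) := by
  have h0 : v (a - y) ≠ 0 := by
    rw [v.map_sub_swap]
    exact (zero_le.trans_lt hy).ne'
  have h0' : a - y ≠ 0 := by simpa using h0
  refine ⟨hρ, by simpa using lt_zero one_ne_zero, ?_⟩
  have h1 : sc a ρ (C (a - y)⁻¹ * (X - C y)) - 1 = C ((a - y)⁻¹ * ρ) * X := by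
    have h2 : (C (a - y)⁻¹ : K[X]) * (C a - C y) = 1 := by
      rw [← C_sub, ← C_mul, inv_mul_cancel₀ h0', C_1]
    rw [map_mul, map_sub, sc_X, sc_C, sc_C, C_mul]
    linear_combination h2
  rw [h1]
  refine (le_X.C_mul _).lt ?_
  rw [mul_one, map_mul, map_inv₀, inv_mul_lt_one₀ (zero_lt_iff.2 h0), v.map_sub_swap]
  exact hy

theorem v_div (h : Rad v a ρ m Pi Po) (y : K) : v ((y - a) / ρ) * v ρ = v (y - a) := by
  rw [← map_mul, div_mul_cancel₀ _ h.ne]

theorem div_le (h : Rad v a ρ m Pi Po) {y : K} (hy : v (y - a) ≤ v ρ) : v ((y - a) / ρ) ≤ 1 := by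
  rwa [map_div₀, div_le_one₀ (zero_lt_iff.2 h.v_ne)]

theorem div_lt (h : Rad v a ρ m Pi Po) {y : K} (hy : v (y - a) < v ρ) : v ((y - a) / ρ) < 1 := by
  rwa [map_div₀, div_lt_one₀ (zero_lt_iff.2 h.v_ne)]

theorem le_div (h : Rad v a ρ m Pi Po) {y : K} (hy : v ρ ≤ v (y - a)) : 1 ≤ v ((y - a) / ρ) := by
  rwa [map_div₀, one_le_div₀ (zero_lt_iff.2 h.v_ne)]

theorem lt_div (h : Rad v a ρ m Pi Po) {y : K} (hy : v ρ < v (y - a)) : 1 < v ((y - a) / ρ) := by
  rwa [map_div₀, one_lt_div₀ (zero_lt_iff.2 h.v_ne)]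

theorem o_sub (h : Rad v a ρ m Pi Po) {y : K} (hy : v (y - a) ≤ v ρ) : v (Po.eval y - 1) < 1 := by
  have h1 := h.o.eval (h.div_le hy)
  rwa [eval_sub, eval_sc' h.ne, eval_one] at h1

theorem v_o (h : Rad v a ρ m Pi Po) {y : K} (hy : v (y - a) ≤ v ρ) : v (Po.eval y) = 1 := by
  have h1 := v_eq_of_sub_lt (v := v) (x := Po.eval y) (y := 1) (by simpa using h.o_sub hy)
  simpa using h1

theorem i_sub (h : Rad v a ρ m Pi Po) (hm : Pi.natDegree ≤ m) {y : K} (hy : v ρ ≤ v (y - a)) :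
    v (Pi.eval y - (y - a) ^ m) < v (y - a) ^ m := by
  have h1 := h.i.eval_out (m := m) ((natDegree_sub_le _ _).trans (max_le
    ((natDegree_sc h.ne _).trans_le hm) (natDegree_C_mul_X_pow_le _ _))) (h.le_div hy)
  rwa [eval_sub, eval_sc' h.ne, eval_mul, eval_C, eval_pow, eval_X, ← mul_pow, ← mul_pow,
    mul_div_cancel₀ _ h.ne, mul_comm, h.v_div] at h1

theorem v_i (h : Rad v a ρ m Pi Po) (hm : Pi.natDegree ≤ m) {y : K} (hy : v ρ ≤ v (y - a)) :
    v (Pi.eval y) = v (y - a) ^ m := by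
  rw [← map_pow]
  exact v_eq_of_sub_lt (by simpa using h.i_sub hm hy)

theorem v_i_ne (h : Rad v a ρ m Pi Po) (hm : Pi.natDegree ≤ m) {y : K} (hy : v ρ ≤ v (y - a)) :
    v (Pi.eval y) ≠ 0 := by
  rw [h.v_i hm hy]
  exact pow_ne_zero _ ((zero_lt_iff.2 h.v_ne).trans_le hy).ne'

theorem isCoprime [IsAlgClosed K] (h : Rad v a ρ m Pi Po) (hm : Pi.natDegree ≤ m) :
    IsCoprime Pi Po := by
  refine (isCoprime_iff_aeval_ne_zero_of_isAlgClosed K K Pi Po).2 fun y => ?_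
  rcases le_total (v ρ) (v (y - a)) with hy | hy
  · exact Or.inl (by simpa using h.v_i_ne hm hy)
  · refine Or.inr fun h0 => ?_
    have h1 := h.v_o hy
    rw [coe_aeval_eq_eval] at h0
    simp [h0] at h1

end Rad

/-- `σ = (σ1 - β Pi) Po + σ2 Pi`, where `β = σ1(∞) = σ2(a)` -/
structure Rel (a : K) (m e : ℕ) (Pi Po σ σ1 σ2 : K[X]) : Prop where
  d1 : σ1.natDegree ≤ m
  d2 : σ2.natDegree ≤ e
  node : σ1.coeff m = σ2.eval a
  eq : σ = (σ1 - C (σ1.coeff m) * Pi) * Po + σ2 * Pi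

/-- the bound for a pair on a circle -/
structure Bd (v : Valuation K Γ) (a ρ : K) (m : ℕ) (Pi σ1 σ2 : K[X]) (M : Γ) : Prop where
  i : Le v (sc a ρ (σ1 - C (σ1.coeff m) * Pi)) (M * v ρ ^ m)
  o : Le v (sc a ρ σ2) M

/-- a splitting along the annulus between two circles -/
structure Spl (v : Valuation K Γ) (a ρ1 ρ2 : K) (m e : ℕ) (Pi Po : K[X]) : Prop where
  monic : Pi.Monic
  di : Pi.natDegree = m
  dO : Po.natDegree ≤ e
  oa : Po.eval a = 1
  r1 : Rad v a ρ1 m Pi Po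
  r2 : Rad v a ρ2 m Pi Po

theorem degree_low (hP : Pi.Monic) (hm : Pi.natDegree = m) (h : σ1.natDegree ≤ m) :
    (σ1 - C (σ1.coeff m) * Pi).degree < m := by
  rw [degree_lt_iff_coeff_zero]
  intro k hk
  rw [coeff_sub, coeff_C_mul]
  rcases hk.lt_or_eq with h1 | rfl
  · rw [coeff_eq_zero_of_natDegree_lt (h.trans_lt h1),
      coeff_eq_zero_of_natDegree_lt (hm.trans_lt h1), mul_zero, sub_zero]
  · rw [← hm, hP.coeff_natDegree, mul_one, sub_self]

theorem circ (hv : Triv v) {f : K[X]} {γ : Γ}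
    (h : ∀ y, v (y - a) = v ρ → v (f.eval y) ≤ γ) : Le v (sc a ρ f) γ :=
  le_of_eval hv fun u hu => by
    rw [eval_sc]
    exact h _ (by rw [add_sub_cancel_left, map_mul, hu, mul_one])

namespace Spl

theorem one (h1 : ρ1 ≠ 0) (h2 : ρ2 ≠ 0) : Spl v a ρ1 ρ2 0 0 1 1 :=
  ⟨monic_one, natDegree_one, natDegree_one.le, eval_one, .one h1, .one h2⟩

theorem mul (h : Spl v a ρ1 ρ2 m e Pi Po) (h' : Spl v a ρ1 ρ2 m' e' Pi' Po') :
    Spl v a ρ1 ρ2 (m + m') (e + e') (Pi * Pi') (Po * Po') :=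
  ⟨h.monic.mul h'.monic, by rw [h.monic.natDegree_mul h'.monic, h.di, h'.di],
    natDegree_mul_le.trans (add_le_add h.dO h'.dO), by rw [eval_mul, h.oa, h'.oa, mul_one],
    h.r1.mul h'.r1, h.r2.mul h'.r2⟩

theorem mono (h : Spl v a ρ1 ρ2 m e Pi Po) (he : e ≤ e') : Spl v a ρ1 ρ2 m e' Pi Po :=
  ⟨h.monic, h.di, h.dO.trans he, h.oa, h.r1, h.r2⟩

theorem pow (h : Spl v a ρ1 ρ2 m e Pi Po) (k : ℕ) :
    Spl v a ρ1 ρ2 (k * m) (k * e) (Pi ^ k) (Po ^ k) := by
  induction k with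
  | zero => simpa using one h.r1.ne h.r2.ne
  | succ k ih => simpa only [Nat.succ_mul, pow_succ] using ih.mul h

theorem prod (h1 : ρ1 ≠ 0) (h2 : ρ2 ≠ 0) {ι : Type*} (s : Finset ι) {m e : ι → ℕ}
    {Pi Po : ι → K[X]} (h : ∀ i, Spl v a ρ1 ρ2 (m i) (e i) (Pi i) (Po i)) :
    Spl v a ρ1 ρ2 (∑ i ∈ s, m i) (∑ i ∈ s, e i) (∏ i ∈ s, Pi i) (∏ i ∈ s, Po i) := by
  classical
  induction s using Finset.induction_on with
  | empty => simpa using one h1 h2
  | insert a s ha ih => simpa only [Finset.sum_insert ha, Finset.prod_insert ha] using (h a).mul ih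

/-- the section with a given pair -/
theorem rel_mk (hd1 : σ1.natDegree ≤ m) (hd2 : σ2.natDegree ≤ e)
    (hn : σ1.coeff m = σ2.eval a) :
    Rel a m e Pi Po ((σ1 - C (σ1.coeff m) * Pi) * Po + σ2 * Pi) σ1 σ2 := ⟨hd1, hd2, hn, rfl⟩

/-- the pair of a section -/
theorem exists_rel [IsAlgClosed K] (h : Spl v a ρ1 ρ2 m e Pi Po) (hσ : σ.natDegree ≤ m + e) :
    ∃ σ1 σ2, Rel a m e Pi Po σ σ1 σ2 := by
  obtain ⟨U, W, hUW⟩ := h.r1.isCoprime h.di.le
  set A := (σ * W) %ₘ Pi with hA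
  set B := σ * U + (σ * W) /ₘ Pi * Po with hB
  have hAd : A.degree < m := by
    have h1 := degree_modByMonic_lt (σ * W) h.monic
    rwa [degree_eq_natDegree h.monic.ne_zero, h.di] at h1
  have hAm : A.coeff m = 0 := coeff_eq_zero_of_degree_lt hAd
  have hAn : A.natDegree ≤ m := natDegree_le_of_degree_le hAd.le
  have heq : σ = A * Po + B * Pi := by
    have h1 := modByMonic_add_div (σ * W) Pi
    rw [hA, hB]
    linear_combination (-σ) * hUW - Po * h1
  have hBd : B.natDegree ≤ e := by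
    by_cases hB0 : B = 0
    · simp [hB0]
    · have h1 : (B * Pi).natDegree ≤ m + e := by
        rw [show B * Pi = σ - A * Po by rw [heq]; ring]
        exact (natDegree_sub_le _ _).trans
          (max_le hσ (natDegree_mul_le.trans (add_le_add hAn h.dO)))
      rw [h.monic.natDegree_mul' hB0 |>.symm.trans (congrArg _ (mul_comm _ _)) |>.symm, h.di] at h1
      omega
  have hc : (A + C (B.eval a) * Pi).coeff m = B.eval a := by
    rw [coeff_add, hAm, coeff_C_mul, ← h.di, h.monic.coeff_natDegree, mul_one, zero_add]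
  refine ⟨A + C (B.eval a) * Pi, B, (natDegree_add_le _ _).trans
    (max_le hAn ((natDegree_C_mul_le _ _).trans h.di.le)), hBd, hc, ?_⟩
  rw [hc, add_sub_cancel_right]
  exact heq

end Spl

namespace Rel

theorem natDegree_le (hs : Spl v a ρ1 ρ2 m e Pi Po) (h : Rel a m e Pi Po σ σ1 σ2) :
    σ.natDegree ≤ m + e := by
  rw [h.eq]
  refine (natDegree_add_le _ _).trans (max_le (natDegree_mul_le.trans (add_le_add
    (natDegree_le_of_degree_le (degree_low hs.monic hs.di h.d1).le) hs.dO)) ?_)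
  rw [add_comm]
  exact natDegree_mul_le.trans (add_le_add h.d2 hs.di.le)

theorem top (hs : Spl v a ρ1 ρ2 m e Pi Po) (h : Rel a m e Pi Po σ σ1 σ2) :
    σ.coeff (m + e) = σ2.coeff e := by
  have h1 := degree_low hs.monic hs.di h.d1
  rw [h.eq, coeff_add, coeff_mul_add_eq_of_natDegree_le (natDegree_le_of_degree_le h1.le) hs.dO,
    coeff_eq_zero_of_degree_lt h1, zero_mul, zero_add, add_comm,
    coeff_mul_add_eq_of_natDegree_le h.d2 hs.di.le, ← hs.di, hs.monic.coeff_natDegree, mul_one]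

/-- the bound from the section -/
theorem bd_of_le (hP : Pi.Monic) (hm : Pi.natDegree = m) (hr : Rad v a ρ m Pi Po)
    (h : Rel a m e Pi Po σ σ1 σ2) (hb : Le v (sc a ρ σ) (M * v ρ ^ m)) :
    Bd v a ρ m Pi σ1 σ2 M := by
  have h0 : ρ ^ m ≠ 0 := pow_ne_zero _ hr.ne
  have h0' : v ρ ^ m ≠ 0 := pow_ne_zero _ hr.v_ne
  have hc : (C (ρ ^ m)⁻¹ : K[X]) * C (ρ ^ m) = 1 := by rw [← C_mul, inv_mul_cancel₀ h0, C_1]
  have h1 : Lt v (C (ρ ^ m)⁻¹ * sc a ρ Pi - X ^ m) 1 := by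
    have h2 := hr.i.C_mul (inv_ne_zero h0)
    rwa [map_inv₀ v, map_pow v, inv_mul_cancel₀ h0', mul_sub, ← mul_assoc, hc, one_mul] at h2
  have h3 := key (B := C (ρ ^ m) * sc a ρ σ2) (γ := M * v ρ ^ m)
    (degree_sc_lt (a := a) hr.ne (degree_low hP hm h.d1)) hr.o h1 (by
      convert hb using 1
      conv_rhs => rw [h.eq, map_add, map_mul, map_mul]
      linear_combination (sc a ρ σ2 * sc a ρ Pi) * hc)
  refine ⟨h3.1, ?_⟩
  have h4 := h3.2.C_mul (ρ ^ m)⁻¹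
  rwa [← mul_assoc, hc, one_mul, map_inv₀ v, map_pow v, mul_comm M, inv_mul_cancel_left₀ h0'] at h4

/-- the bound from the pair -/
theorem bd_of_pair (hr : Rad v a ρ m Pi Po) (h : Rel a m e Pi Po σ σ1 σ2)
    (h1 : Le v (sc a ρ σ1) (M * v ρ ^ m)) (h2 : Le v (sc a ρ σ2) M) :
    Bd v a ρ m Pi σ1 σ2 M := by
  refine ⟨?_, h2⟩
  have h3 : v (σ1.coeff m) ≤ M := by
    rw [h.node, ← coeff_zero_sc (ρ := ρ)]
    exact h2 0
  rw [map_sub, map_mul, sc_C]
  exact h1.sub (((le_C _).mono h3).mul hr.le_i)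

theorem v_node (h : Rel a m e Pi Po σ σ1 σ2) (hb : Bd v a ρ m Pi σ1 σ2 M) :
    v (σ1.coeff m) ≤ M := by
  rw [h.node, ← coeff_zero_sc (ρ := ρ)]
  exact hb.o 0

/-- inside, the outer part is constant -/
theorem ins_o (hr : Rad v a ρ m Pi Po) (h : Rel a m e Pi Po σ σ1 σ2)
    (hb : Bd v a ρ m Pi σ1 σ2 M) (hM : M ≠ 0) {y : K} (hy : v (y - a) < v ρ) :
    v (σ2.eval y - σ1.coeff m) < M := by
  have h1 := hb.o.eval_sub hM (hr.div_lt hy)
  rwa [eval_sc' hr.ne, coeff_zero_sc, ← h.node] at h1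

/-- the estimate inside -/
theorem ins (hr : Rad v a ρ m Pi Po) (h : Rel a m e Pi Po σ σ1 σ2)
    (hb : Bd v a ρ m Pi σ1 σ2 M) (hM : M ≠ 0) {y : K} (hy : v (y - a) < v ρ) (hη : η ≠ 0)
    (hle : v (Pi.eval y) ≤ η) : v (σ.eval y - σ1.eval y * Po.eval y) < M * η := by
  have h1 : v (σ2.eval y - σ1.coeff m * Po.eval y) < M := by
    rw [show σ2.eval y - σ1.coeff m * Po.eval y =
      (σ2.eval y - σ1.coeff m) - σ1.coeff m * (Po.eval y - 1) by ring]
    refine v.map_sub_lt (h.ins_o hr hb hM hy) ?_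
    rw [map_mul]
    simpa using mul_lt_mul_of_le_of_lt_of_nonneg_of_pos (h.v_node hb) (hr.o_sub hy.le) zero_le
      (zero_lt_iff.2 hM)
  have h2 : σ.eval y - σ1.eval y * Po.eval y =
      (σ2.eval y - σ1.coeff m * Po.eval y) * Pi.eval y := by
    conv_lhs => rw [h.eq]
    simp only [eval_add, eval_mul, eval_sub, eval_C]
    ring
  rw [h2, map_mul]
  exact mul_lt_mul_of_lt_of_le_of_nonneg_of_pos h1 hle zero_le (zero_lt_iff.2 hη)

/-- outside, the inner part is a multiple of `Pi` -/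
theorem out_i (hP : Pi.Monic) (hm : Pi.natDegree = m) (hr : Rad v a ρ m Pi Po)
    (h : Rel a m e Pi Po σ σ1 σ2) (hb : Bd v a ρ m Pi σ1 σ2 M) (hM : M ≠ 0) {y : K}
    (hy : v ρ < v (y - a)) :
    v (σ1.eval y - σ1.coeff m * Pi.eval y) < M * v (Pi.eval y) := by
  have h1 := hb.i.eval_out_lt (mul_ne_zero hM (pow_ne_zero _ hr.v_ne))
    (degree_sc_lt (a := a) hr.ne (degree_low hP hm h.d1)) (hr.lt_div hy)
  rwa [eval_sc' hr.ne, mul_assoc, ← mul_pow, mul_comm (v ρ), hr.v_div, ← hr.v_i hm.le hy.le,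
    eval_sub, eval_mul, eval_C] at h1

/-- the estimate outside -/
theorem out (hP : Pi.Monic) (hm : Pi.natDegree = m) (hr : Rad v a ρ m Pi Po)
    (h : Rel a m e Pi Po σ σ1 σ2) (hb : Bd v a ρ m Pi σ1 σ2 M) (hM : M ≠ 0) {y : K}
    (hy : v ρ < v (y - a)) (hη : η ≠ 0) (hle : v (Po.eval y) ≤ η) :
    v (σ.eval y - σ2.eval y * Pi.eval y) < M * v (Pi.eval y) * η := by
  have h2 : σ.eval y - σ2.eval y * Pi.eval y =
      (σ1.eval y - σ1.coeff m * Pi.eval y) * Po.eval y := by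
    conv_lhs => rw [h.eq]
    simp only [eval_add, eval_mul, eval_sub, eval_C]
    ring
  rw [h2, map_mul]
  exact mul_lt_mul_of_lt_of_le_of_nonneg_of_pos (h.out_i hP hm hr hb hM hy) hle zero_le
    (zero_lt_iff.2 hη)

end Rel

/-- a product of linear factors without roots in the closed annulus splits -/
theorem exists_spl_prod (h1 : ρ1 ≠ 0) (h12 : v ρ1 < v ρ2) (s : Multiset K)
    (hs : ∀ y ∈ s, v (y - a) < v ρ1 ∨ v ρ2 < v (y - a)) :
    ∃ (m e : ℕ) (c : K) (Pi Po : K[X]), c ≠ 0 ∧ m + e = s.card ∧ Spl v a ρ1 ρ2 m e Pi Po ∧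
      (s.map fun y => X - C y).prod = C c * (Pi * Po) := by
  have h2 : ρ2 ≠ 0 := fun h => by simp [h] at h12
  induction s using Multiset.induction_on with
  | empty => exact ⟨0, 0, 1, 1, 1, one_ne_zero, rfl, .one h1 h2, by simp⟩
  | cons y s ih =>
    obtain ⟨m, e, c, Pi, Po, hc, hme, hS, hp⟩ := ih fun z hz => hs z (Multiset.mem_cons_of_mem hz)
    rw [Multiset.map_cons, Multiset.prod_cons, hp, Multiset.card_cons]
    rcases hs y (Multiset.mem_cons_self _ _) with hy | hy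
    · refine ⟨m + 1, e + 0, c, Pi * (X - C y), Po * 1, hc, by omega, hS.mul
        ⟨monic_X_sub_C y, natDegree_X_sub_C y, natDegree_one.le, eval_one, .lin_in h1 hy,
          .lin_in h2 (hy.trans h12)⟩, by ring⟩
    · have h0 : a - y ≠ 0 := fun h => by
        rw [v.map_sub_swap, h, map_zero] at hy
        exact not_lt_zero hy
      refine ⟨m + 0, e + 1, c * (a - y), Pi * 1, Po * (C (a - y)⁻¹ * (X - C y)),
        mul_ne_zero hc h0, by omega, hS.mul ⟨monic_one, natDegree_one,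
          (natDegree_C_mul_le _ _).trans (natDegree_X_sub_C y).le, by simp [inv_mul_cancel₀ h0],
          .lin_out h1 (h12.trans hy), .lin_out h2 hy⟩, ?_⟩
      have h3 : (C (a - y) : K[X]) * C (a - y)⁻¹ = 1 := by rw [← C_mul, mul_inv_cancel₀ h0, C_1]
      rw [C_mul]
      linear_combination (-(X - C y) * C c * Pi * Po) * h3

theorem exists_spl [IsAlgClosed K] (h1 : ρ1 ≠ 0) (h12 : v ρ1 < v ρ2) {P : K[X]} (hP : P ≠ 0)
    {d : ℕ} (hd : P.natDegree ≤ d)
    (hs : ∀ y, P.eval y = 0 → v (y - a) < v ρ1 ∨ v ρ2 < v (y - a)) :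
    ∃ (m e : ℕ) (c : K) (Pi Po : K[X]), c ≠ 0 ∧ m + e = d ∧ Spl v a ρ1 ρ2 m e Pi Po ∧
      P = C c * (Pi * Po) := by
  obtain ⟨m, e, c, Pi, Po, hc, hme, hS, hp⟩ := exists_spl_prod (a := a) h1 h12 P.roots
    fun y hy => hs y ((mem_roots hP).1 hy)
  have h3 := card_roots' P
  refine ⟨m, d - m, P.leadingCoeff * c, Pi, Po, mul_ne_zero (leadingCoeff_ne_zero.2 hP) hc,
    by omega, hS.mono (by omega), ?_⟩
  rw [C_mul, mul_assoc, ← hp]
  exact (IsAlgClosed.splits P).eq_prod_roots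

end Crest.Agent.X262.Drop30
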